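import Vale.Agent.P100.Local.Liouville

/-!
Pointwise a priori bounds with the weighted scaling exponents, by maximising a scale invariant
quantity times the distance to the boundary of a ball and rescaling at the maximum.
-/

open Set Filter Metric Laplacian InnerProductSpace Real
open scoped Topology RealInnerProductSpace

namespace Vale.Agent.P100.Local

noncomputable section

variable {n : ℕ}

/-- A positive solution of the weighted system off the origin. -/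
structure PSol (p q A B : ℝ) (u v : EuclideanSpace ℝ (Fin n) → ℝ) : Prop where
  u2 : ∀ x, x ≠ 0 → ContDiffAt ℝ 2 u x
  v2 : ∀ x, x ≠ 0 → ContDiffAt ℝ 2 v x
  up : ∀ x, x ≠ 0 → 0 < u x
  vp : ∀ x, x ≠ 0 → 0 < v x
  eu : ∀ x, x ≠ 0 → -(Δ u x) = ‖x‖ ^ A * v x ^ p
  ev : ∀ x, x ≠ 0 → -(Δ v x) = ‖x‖ ^ B * u x ^ q

theorem PSol.symm {p q A B : ℝ} {u v : EuclideanSpace ℝ (Fin n) → ℝ} (H : PSol p q A B u v) :
    PSol q p B A v u :=
  ⟨H.v2, H.u2, H.vp, H.up, H.ev, H.eu⟩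

theorem scaled_le {a c M s r : ℝ} {X : ℝ} (ha : 0 < a) (hM : 0 < M) (hs : s = M⁻¹)
    (hr : 1 / 2 ≤ r) (hr' : r ≤ 2) (hX : 0 ≤ X) (h : X ^ a⁻¹ ≤ 2 * M) :
    s ^ a * r ^ (-c) * X ≤ (2 : ℝ) ^ |c| * (2 : ℝ) ^ a := by
  have h1 := rpow_le_rpow (rpow_nonneg hX _) h ha.le
  rw [← rpow_mul hX, inv_mul_cancel₀ ha.ne', rpow_one, mul_rpow two_pos.le hM.le] at h1
  have h2 := (rpow_bounds (-c) hr hr').2
  rw [abs_neg] at h2
  have hs0 : 0 < s := by rw [hs]; positivity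
  calc s ^ a * r ^ (-c) * X ≤ s ^ a * (2 : ℝ) ^ |c| * ((2 : ℝ) ^ a * M ^ a) := by gcongr
    _ = (2 : ℝ) ^ |c| * (2 : ℝ) ^ a * (s * M) ^ a := by rw [mul_rpow hs0.le hM.le]; ring
    _ = _ := by rw [hs, inv_mul_cancel₀ hM.ne', one_rpow, mul_one]

theorem half_le {a M s X : ℝ} (ha : 0 < a) (hM : 0 < M) (hs : s = M⁻¹) (hX : 0 ≤ X)
    (h : M / 2 ≤ X ^ a⁻¹) : (1 / 2 : ℝ) ^ a ≤ s ^ a * X := by
  have h1 := rpow_le_rpow (by positivity) h ha.le
  rw [← rpow_mul hX, inv_mul_cancel₀ ha.ne', rpow_one] at h1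
  have hs0 : 0 < s := by rw [hs]; positivity
  calc (1 / 2 : ℝ) ^ a = (s * (M / 2)) ^ a := by rw [hs]; field_simp
    _ = s ^ a * (M / 2) ^ a := mul_rpow hs0.le (by positivity)
    _ ≤ _ := by gcongr

theorem bound_le {a c R k X : ℝ} (ha : 0 < a) (hR : 0 < R) (hk : 0 < k) (hX : 0 ≤ X)
    (h : (R ^ c * X) ^ a⁻¹ ≤ k / R) : X ≤ k ^ a * R ^ (-(a + c)) := by
  have h1 := rpow_le_rpow (by positivity) h ha.le
  rw [← rpow_mul (by positivity), inv_mul_cancel₀ ha.ne', rpow_one, div_rpow hk.le hR.le] at h1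
  rw [show -(a + c) = -a + -c by ring, rpow_add hR, rpow_neg hR.le, rpow_neg hR.le]
  calc X = (R ^ c)⁻¹ * (R ^ c * X) := by field_simp
    _ ≤ (R ^ c)⁻¹ * (k ^ a / R ^ a) := by gcongr
    _ = _ := by field_simp

/-- Pointwise bounds with the scaling exponents of the weighted system. -/
theorem apriori (hn : 3 ≤ n) (p q A B : ℝ) (hp : 0 < p) (hq : 0 < q) (hpq : 1 < p * q)
    (hcase : (((n : ℝ) - 2) * (p * q - 1) < 4 * (p + 1) ∧
        ((n : ℝ) - 2) * (p * q - 1) < 4 * (q + 1)) ∨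
      ((n : ℝ) - 2) * (p * q - 1) < 2 * (max p q + 1)) :
    ∃ C, 0 < C ∧ ∀ u v : EuclideanSpace ℝ (Fin n) → ℝ, PSol p q A B u v → ∀ x, x ≠ 0 →
      u x ≤ C * ‖x‖ ^ (-((2 + A + p * (2 + B)) / (p * q - 1))) ∧
        v x ≤ C * ‖x‖ ^ (-((2 + B + q * (2 + A)) / (p * q - 1))) := by
  have hd : 0 < p * q - 1 := by linarith
  set a0 := 2 * (p + 1) / (p * q - 1) with ha0d
  set b0 := 2 * (q + 1) / (p * q - 1) with hb0d
  set a1 := (A + p * B) / (p * q - 1) with ha1d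
  set b1 := (B + q * A) / (p * q - 1) with hb1d
  have ha0 : 0 < a0 := by positivity
  have hb0 : 0 < b0 := by positivity
  have hsum : (2 + A + p * (2 + B)) / (p * q - 1) = a0 + a1 ∧
      (2 + B + q * (2 + A)) / (p * q - 1) = b0 + b1 := by
    constructor
    · rw [ha0d, ha1d, ← add_div]; ring
    · rw [hb0d, hb1d, ← add_div]; ring
  have r1 : a0 + 2 = p * b0 := by
    rw [ha0d, hb0d, mul_div_assoc', div_add' _ _ _ hd.ne', div_left_inj' hd.ne']; ring
  have r2 : b0 + 2 = q * a0 := by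
    rw [ha0d, hb0d, mul_div_assoc', div_add' _ _ _ hd.ne', div_left_inj' hd.ne']; ring
  have r3 : a1 + A = p * b1 := by
    rw [ha1d, hb1d, mul_div_assoc', div_add' _ _ _ hd.ne', div_left_inj' hd.ne']; ring
  have r4 : b1 + B = q * a1 := by
    rw [ha1d, hb1d, mul_div_assoc', div_add' _ _ _ hd.ne', div_left_inj' hd.ne']; ring
  set K := (2 : ℝ) ^ |a1| * (2 : ℝ) ^ a0 + (2 : ℝ) ^ |b1| * (2 : ℝ) ^ b0 with hKd
  set η := min ((1 / 2 : ℝ) ^ a0) ((1 / 2 : ℝ) ^ b0) with hηd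
  obtain ⟨k, hk3, hk⟩ := no_conf hn p q A B K η hp hq hpq hcase (by positivity)
    (lt_min (by positivity) (by positivity))
  refine ⟨(4 * k) ^ a0 + (4 * k) ^ b0, by positivity, fun u v H x hx => ?_⟩
  have hR : 0 < ‖x‖ := norm_pos_iff.2 hx
  set R := ‖x‖ with hRd
  have hne : ∀ w : EuclideanSpace ℝ (Fin n), dist w x ≤ R / 2 → R / 2 ≤ ‖w‖ ∧ w ≠ 0 := by
    intro w hw
    have h := norm_le_norm_add_norm_sub w x
    rw [← hRd, norm_sub_rev, ← dist_eq_norm, dist_comm] at h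
    have h1 : R / 2 ≤ ‖w‖ := by linarith [dist_comm w x]
    exact ⟨h1, norm_pos_iff.1 (lt_of_lt_of_le (half_pos hR) h1)⟩
  set M : EuclideanSpace ℝ (Fin n) → ℝ :=
    fun y => (‖y‖ ^ a1 * u y) ^ a0⁻¹ + (‖y‖ ^ b1 * v y) ^ b0⁻¹ with hMd
  have hMpos : ∀ w : EuclideanSpace ℝ (Fin n), w ≠ 0 → 0 < M w := fun w hw => by
    have := rpow_pos_of_pos (norm_pos_iff.2 hw) a1
    have := rpow_pos_of_pos (norm_pos_iff.2 hw) b1
    have := H.up w hw
    have := H.vp w hw
    simp only [hMd]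
    positivity
  have hcont : ContinuousOn (fun y => M y * (R / 2 - dist y x)) (closedBall x (R / 2)) := by
    intro y hy
    obtain ⟨-, hy0⟩ := hne y hy
    have hn1 : ∀ c : ℝ, ContinuousAt (fun y : EuclideanSpace ℝ (Fin n) => ‖y‖ ^ c) y := fun c =>
      continuous_norm.continuousAt.rpow_const (Or.inl (norm_ne_zero_iff.2 hy0))
    have h1 : ContinuousAt (fun y => (‖y‖ ^ a1 * u y) ^ a0⁻¹) y :=
      ((hn1 a1).mul (H.u2 y hy0).continuousAt).rpow_const (Or.inr (by positivity))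
    have h2 : ContinuousAt (fun y => (‖y‖ ^ b1 * v y) ^ b0⁻¹) y :=
      ((hn1 b1).mul (H.v2 y hy0).continuousAt).rpow_const (Or.inr (by positivity))
    exact ((h1.add h2).mul (continuousAt_const.sub (by fun_prop))).continuousWithinAt
  obtain ⟨y, hy, hymax⟩ := (isCompact_closedBall x (R / 2)).exists_isMaxOn
    ⟨x, mem_closedBall_self (by positivity)⟩ hcont
  rw [mem_closedBall] at hy
  obtain ⟨hyR, hy0⟩ := hne y hy
  set d := R / 2 - dist y x with hd'
  set m := M y with hm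
  have hm0 : 0 < m := hMpos y hy0
  have hbound : M x * (R / 2) ≤ m * d := by
    have h : M x * (R / 2 - dist x x) ≤ m * d :=
      hymax (mem_closedBall_self (by positivity))
    simpa using h
  have hsmall : m * d < 2 * k := by
    by_contra hcon
    push Not at hcon
    set s := m⁻¹ with hs
    have hs0 : 0 < s := by positivity
    have hd0 : 0 < d := by
      by_contra h
      push Not at h
      have := mul_nonpos_of_nonneg_of_nonpos hm0.le h
      linarith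
    have hyp : 0 < ‖y‖ := norm_pos_iff.2 hy0
    have hsk : s * k ≤ d / 2 := by
      rw [hs, inv_mul_le_iff₀ hm0]; linarith
    set e := ‖y‖⁻¹ • y with hed
    set σ := s / ‖y‖ with hσd
    have hσk : σ * k ≤ 1 / 2 := by
      rw [hσd, div_mul_eq_mul_div, div_le_iff₀ hyp]
      linarith [dist_nonneg (x := y) (y := x)]
    have he : ‖e‖ = 1 := norm_smul_inv_norm hy0
    have hfac : ∀ z : EuclideanSpace ℝ (Fin n), y + s • z = ‖y‖ • (e + σ • z) := fun z => by
      rw [hed, hσd, smul_add, smul_smul, smul_smul, mul_inv_cancel₀ hyp.ne', one_smul,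
        mul_div_cancel₀ _ hyp.ne']
    have hpt : ∀ z : EuclideanSpace ℝ (Fin n), ‖z‖ ≤ k → y + s • z ≠ 0 ∧
        M (y + s • z) ≤ 2 * m := by
      intro z hz
      have h1 : dist (y + s • z) y ≤ d / 2 := by
        rw [dist_eq_norm, add_sub_cancel_left, norm_smul, Real.norm_eq_abs, abs_of_pos hs0]
        exact (mul_le_mul_of_nonneg_left hz hs0.le).trans hsk
      have h2 : dist (y + s • z) x ≤ R / 2 - d / 2 := by
        linarith [dist_triangle (y + s • z) y x]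
      obtain ⟨-, hw0⟩ := hne (y + s • z) (by linarith)
      refine ⟨hw0, ?_⟩
      have h3 : M (y + s • z) * (R / 2 - dist (y + s • z) x) ≤ m * d :=
        hymax (mem_closedBall.2 (by linarith))
      have h4 : M (y + s • z) * (d / 2) ≤ m * d :=
        le_trans (mul_le_mul_of_nonneg_left (by linarith) (hMpos _ hw0).le) h3
      by_contra h5
      push Not at h5
      have := mul_lt_mul_of_pos_right h5 (half_pos hd0)
      linarith
    set U : EuclideanSpace ℝ (Fin n) → ℝ := fun z => s ^ a0 * ‖y‖ ^ a1 * u (y + s • z) with hU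
    set V : EuclideanSpace ℝ (Fin n) → ℝ := fun z => s ^ b0 * ‖y‖ ^ b1 * v (y + s • z) with hV
    have heq : ∀ (c0 c1 d0 d1 r X : ℝ) (f g : EuclideanSpace ℝ (Fin n) → ℝ), c0 + 2 = r * d0 →
        c1 + X = r * d1 → (∀ w, w ≠ 0 → ContDiffAt ℝ 2 f w) → (∀ w, w ≠ 0 → 0 < g w) →
        (∀ w, w ≠ 0 → -(Δ f w) = ‖w‖ ^ X * g w ^ r) → ∀ z, ‖z‖ ≤ k →
        -(Δ (fun z => s ^ c0 * ‖y‖ ^ c1 * f (y + s • z)) z) =
          wt X σ e z * (s ^ d0 * ‖y‖ ^ d1 * g (y + s • z)) ^ r := by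
      intro c0 c1 d0 d1 r X f g e1 e2 hf2 hg hfe z hz
      obtain ⟨hw0, -⟩ := hpt z hz
      rw [laplacian_affine (hf2 _ hw0)]
      have h := hfe _ hw0
      rw [mul_rpow (by positivity) (hg _ hw0).le, mul_rpow (by positivity) (by positivity),
        ← rpow_mul hs0.le, ← rpow_mul hyp.le, mul_comm d0 r, mul_comm d1 r, ← e1, ← e2,
        rpow_add hs0, rpow_add hyp, rpow_two, ← mul_neg, h, hfac z, norm_smul, Real.norm_eq_abs,
        abs_of_pos hyp, mul_rpow hyp.le (norm_nonneg _), wt]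
      ring
    have hupper : ∀ (c0 c1 : ℝ) (f : EuclideanSpace ℝ (Fin n) → ℝ), 0 < c0 →
        (∀ w, w ≠ 0 → 0 < f w) → (∀ w, w ≠ 0 → (‖w‖ ^ c1 * f w) ^ c0⁻¹ ≤ M w) → ∀ z, ‖z‖ ≤ k →
        s ^ c0 * ‖y‖ ^ c1 * f (y + s • z) ≤ (2 : ℝ) ^ |c1| * (2 : ℝ) ^ c0 := by
      intro c0 c1 f hc0 hf hfM z hz
      obtain ⟨hw0, hwM⟩ := hpt z hz
      obtain ⟨z1, z2⟩ := wt_norm he (div_nonneg hs0.le hyp.le) (z := z)
        ((mul_le_mul_of_nonneg_left hz (div_nonneg hs0.le hyp.le)).trans hσk)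
      have hX : 0 ≤ ‖y + s • z‖ ^ c1 * f (y + s • z) :=
        mul_nonneg (by positivity) (hf _ hw0).le
      refine le_trans (le_of_eq ?_)
        (scaled_le (c := c1) hc0 hm0 hs z1 z2 hX ((hfM _ hw0).trans hwM))
      have hp0 : 0 < ‖e + σ • z‖ := by linarith
      rw [hfac z, norm_smul, Real.norm_eq_abs, abs_of_pos hyp, mul_rpow hyp.le hp0.le,
        rpow_neg hp0.le]
      field_simp
    have hau : ∀ w, w ≠ 0 → (‖w‖ ^ a1 * u w) ^ a0⁻¹ ≤ M w := fun w hw =>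
      le_add_of_nonneg_right (rpow_nonneg (mul_nonneg (by positivity) (H.vp w hw).le) _)
    have hav : ∀ w, w ≠ 0 → (‖w‖ ^ b1 * v w) ^ b0⁻¹ ≤ M w := fun w hw =>
      le_add_of_nonneg_left (rpow_nonneg (mul_nonneg (by positivity) (H.up w hw).le) _)
    have hK1 : (2 : ℝ) ^ |a1| * (2 : ℝ) ^ a0 ≤ K := le_add_of_nonneg_right (by positivity)
    have hK2 : (2 : ℝ) ^ |b1| * (2 : ℝ) ^ b0 ≤ K := le_add_of_nonneg_left (by positivity)
    refine hk σ e U V ⟨he, by positivity, hσk,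
      fun z hz => contDiffAt_affine (H.u2 _ (hpt z hz).1),
      fun z hz => contDiffAt_affine (H.v2 _ (hpt z hz).1),
      fun z hz => mul_pos (by positivity) (H.up _ (hpt z hz).1),
      fun z hz => mul_pos (by positivity) (H.vp _ (hpt z hz).1),
      fun z hz => (hupper a0 a1 u ha0 H.up hau z hz).trans hK1,
      fun z hz => (hupper b0 b1 v hb0 H.vp hav z hz).trans hK2,
      heq a0 a1 b0 b1 p A u v r1 r3 H.u2 H.vp H.eu,
      heq b0 b1 a0 a1 q B v u r2 r4 H.v2 H.up H.ev⟩ ?_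
    have hm' : m = (‖y‖ ^ a1 * u y) ^ a0⁻¹ + (‖y‖ ^ b1 * v y) ^ b0⁻¹ := rfl
    rcases le_total (m / 2) ((‖y‖ ^ a1 * u y) ^ a0⁻¹) with h | h
    · refine Or.inl ((min_le_left _ _).trans ?_)
      have := half_le ha0 hm0 hs (mul_nonneg (by positivity) (H.up y hy0).le) h
      simpa [hU, mul_assoc] using this
    · refine Or.inr ((min_le_right _ _).trans ?_)
      have := half_le hb0 hm0 hs (mul_nonneg (by positivity) (H.vp y hy0).le)
        (show m / 2 ≤ (‖y‖ ^ b1 * v y) ^ b0⁻¹ by linarith)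
      simpa [hV, mul_assoc] using this
  have hMx : M x ≤ 4 * k / R := by
    rw [le_div_iff₀ hR]; linarith
  have h1 : (R ^ a1 * u x) ^ a0⁻¹ ≤ 4 * k / R :=
    le_trans (le_add_of_nonneg_right (rpow_nonneg (mul_nonneg (by positivity) (H.vp x hx).le) _))
      hMx
  have h2 : (R ^ b1 * v x) ^ b0⁻¹ ≤ 4 * k / R :=
    le_trans (le_add_of_nonneg_left (rpow_nonneg (mul_nonneg (by positivity) (H.up x hx).le) _))
      hMx
  rw [hsum.1, hsum.2]
  constructor
  · refine (bound_le ha0 hR (by positivity) (H.up x hx).le h1).trans ?_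
    exact mul_le_mul_of_nonneg_right (le_add_of_nonneg_right (by positivity)) (by positivity)
  · refine (bound_le hb0 hR (by positivity) (H.vp x hx).le h2).trans ?_
    exact mul_le_mul_of_nonneg_right (le_add_of_nonneg_left (by positivity)) (by positivity)

end

end Vale.Agent.P100.Local
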