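import Vale.Agent.P100.Local.Grad

/-!
Affine changes of variable, slowly varying weights and power bounds propagated by barriers, for
functions given on a ball only.
-/

open Set Filter Metric Laplacian InnerProductSpace Real
open scoped Topology RealInnerProductSpace

namespace Vale.Agent.P100.Local

noncomputable section

variable {n : ℕ}

theorem contDiffAt_affine {u : EuclideanSpace ℝ (Fin n) → ℝ} {y z : EuclideanSpace ℝ (Fin n)}
    {s m : ℝ} (hu : ContDiffAt ℝ 2 u (y + s • z)) :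
    ContDiffAt ℝ 2 (fun z => m * u (y + s • z)) z :=
  contDiffAt_const.mul (hu.comp z (f := fun z => y + s • z) (by fun_prop))

theorem laplacian_affine {u : EuclideanSpace ℝ (Fin n) → ℝ} {y z : EuclideanSpace ℝ (Fin n)}
    {s m : ℝ} (hu : ContDiffAt ℝ 2 u (y + s • z)) :
    Δ (fun z => m * u (y + s • z)) z = m * s ^ 2 * Δ u (y + s • z) := by
  set b := EuclideanSpace.basisFun (Fin n) ℝ
  rw [laplacian_eq_iteratedFDeriv_orthonormalBasis _ b,
    laplacian_eq_iteratedFDeriv_orthonormalBasis u b]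
  simp only [Finset.mul_sum]
  refine Finset.sum_congr rfl fun i _ => ?_
  obtain ⟨q, hq, hq'⟩ := Vale.Agent.P100.line_deriv (e := b i) hu
  obtain ⟨r, hr, hr'⟩ :=
    Vale.Agent.P100.line_deriv (e := b i) (contDiffAt_affine (m := m) hu)
  have hst : Tendsto (fun t : ℝ => s * t) (𝓝 0) (𝓝 0) := by
    simpa using (continuous_const.mul continuous_id).tendsto (0 : ℝ) (f := fun t : ℝ => s * t)
  have hev : r =ᶠ[𝓝 0] fun t => m * (s * q (s * t)) := by
    filter_upwards [hr, hst.eventually hq] with t ht ht'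
    have h1 : HasDerivAt (fun t : ℝ => m * u (y + s • z + (s * t) • b i))
        (m * (s * q (s * t))) t :=
      ((HasDerivAt.comp (h₂ := fun t : ℝ => u (y + s • z + t • b i)) t ht'
        ((hasDerivAt_id t).const_mul s)).congr_deriv (by ring)).const_mul m
    refine ht.unique (h1.congr_of_eventuallyEq (Eventually.of_forall fun t => ?_))
    simp [smul_add, smul_smul, add_assoc]
  have h0 : HasDerivAt q (iteratedFDeriv ℝ 2 u (y + s • z) ![b i, b i]) (s * 0) := by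
    rw [mul_zero]; exact hq'
  have h2 : HasDerivAt (fun t : ℝ => m * (s * q (s * t)))
      (m * (s * (iteratedFDeriv ℝ 2 u (y + s • z) ![b i, b i] * s))) 0 :=
    (((h0.comp (0 : ℝ) ((hasDerivAt_id (0 : ℝ)).const_mul s)).congr_deriv
      (by ring)).const_mul s).const_mul m
  rw [(hr'.congr_of_eventuallyEq hev.symm).unique h2]
  ring

/-- The normalised weight. -/
def wt (A σ : ℝ) (e z : EuclideanSpace ℝ (Fin n)) : ℝ := ‖e + σ • z‖ ^ A

theorem wt_norm {σ : ℝ} {e z : EuclideanSpace ℝ (Fin n)} (he : ‖e‖ = 1) (hσ : 0 ≤ σ)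
    (hz : σ * ‖z‖ ≤ 1 / 2) : 1 / 2 ≤ ‖e + σ • z‖ ∧ ‖e + σ • z‖ ≤ 2 := by
  have h : ‖σ • z‖ ≤ 1 / 2 := by rwa [norm_smul, Real.norm_eq_abs, abs_of_nonneg hσ]
  have h1 := norm_add_le e (σ • z)
  have h2 := norm_sub_norm_le e (-(σ • z))
  rw [norm_neg, sub_neg_eq_add] at h2
  constructor <;> linarith

theorem rpow_bounds {s : ℝ} (A : ℝ) (h1 : 1 / 2 ≤ s) (h2 : s ≤ 2) :
    ((2 : ℝ) ^ |A|)⁻¹ ≤ s ^ A ∧ s ^ A ≤ (2 : ℝ) ^ |A| := by
  have hs : 0 < s := by linarith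
  have hl : |Real.log s| ≤ Real.log 2 := by
    rw [abs_le]
    refine ⟨?_, Real.log_le_log hs h2⟩
    rw [← Real.log_inv]
    exact Real.log_le_log (by norm_num) (by linarith)
  have hA : |Real.log s * A| ≤ Real.log 2 * |A| := by
    rw [abs_mul]; exact mul_le_mul_of_nonneg_right hl (abs_nonneg A)
  rw [rpow_def_of_pos hs, rpow_def_of_pos two_pos, ← Real.exp_neg]
  exact ⟨exp_le_exp.2 (abs_le.1 hA).1, exp_le_exp.2 (abs_le.1 hA).2⟩

theorem wt_ratio {A σ : ℝ} {e z w : EuclideanSpace ℝ (Fin n)} (he : ‖e‖ = 1) (hσ : 0 ≤ σ)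
    (hz : σ * ‖z‖ ≤ 1 / 2) (hw : σ * ‖w‖ ≤ 1 / 2) :
    wt A σ e w ≤ Real.exp (2 * |A| * σ * ‖w - z‖) * wt A σ e z := by
  obtain ⟨z1, z2⟩ := wt_norm he hσ hz
  obtain ⟨w1, w2⟩ := wt_norm he hσ hw
  set a := ‖e + σ • z‖
  set b := ‖e + σ • w‖
  have ha : 0 < a := by linarith
  have hb : 0 < b := by linarith
  have hd : |b - a| ≤ σ * ‖w - z‖ := by
    refine (abs_norm_sub_norm_le _ _).trans (le_of_eq ?_)
    rw [show e + σ • w - (e + σ • z) = σ • (w - z) by module, norm_smul, Real.norm_eq_abs,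
      abs_of_nonneg hσ]
  have hlog : ∀ s t : ℝ, 0 < t → 1 / 2 ≤ s → Real.log t - Real.log s ≤ 2 * |t - s| := by
    intro s t ht hs
    have hs0 : 0 < s := by linarith
    rw [← Real.log_div ht.ne' hs0.ne']
    refine (Real.log_le_sub_one_of_pos (div_pos ht hs0)).trans ?_
    rw [div_sub_one hs0.ne', div_le_iff₀ hs0]
    nlinarith [le_abs_self (t - s), abs_nonneg (t - s)]
  have h1 : |Real.log b - Real.log a| ≤ 2 * σ * ‖w - z‖ := by
    rw [abs_le]
    have := hlog a b hb z1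
    have := hlog b a ha w1
    rw [abs_sub_comm a b] at this
    constructor <;> linarith
  rw [wt, wt, rpow_def_of_pos hb, rpow_def_of_pos ha, ← Real.exp_add]
  refine exp_le_exp.2 ?_
  have h2 := (le_abs_self ((Real.log b - Real.log a) * A)).trans
    (le_of_eq (abs_mul (Real.log b - Real.log a) A))
  have h3 := mul_le_mul_of_nonneg_right h1 (abs_nonneg A)
  linarith

/-- A lower bound at the centre spreads over a small ball. -/
theorem lip_lower {U : EuclideanSpace ℝ (Fin n) → ℝ} {ρ G : ℝ}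
    (hU : ∀ z, ‖z‖ ≤ ρ → ContDiffAt ℝ 2 U z) (hG : ∀ z, ‖z‖ ≤ ρ → ‖fderiv ℝ U z‖ ≤ G)
    {z : EuclideanSpace ℝ (Fin n)} (hz : ‖z‖ ≤ ρ) : U 0 - G * ‖z‖ ≤ U z := by
  have h := (convex_closedBall (0 : EuclideanSpace ℝ (Fin n)) ρ).norm_image_sub_le_of_norm_fderiv_le
    (fun x hx => (hU x (mem_closedBall_zero_iff.1 hx)).differentiableAt (by norm_num))
    (fun x hx => hG x (mem_closedBall_zero_iff.1 hx))
    (mem_closedBall_self ((norm_nonneg z).trans hz)) (mem_closedBall_zero_iff.2 hz)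
  rw [sub_zero, Real.norm_eq_abs] at h
  linarith [(abs_le.1 h).1]

/-- A superharmonic function on an annulus, bounded below on the inner sphere, dominates a
multiple of the fundamental solution. -/
theorem fund_lower (hn : 3 ≤ n) {U : EuclideanSpace ℝ (Fin n) → ℝ} {δ k κ : ℝ} (hδ : 0 < δ)
    (hδk : δ ≤ k) (hκ : 0 < κ) (hU : ∀ z, ‖z‖ ≤ k → ContDiffAt ℝ 2 U z)
    (hpos : ∀ z, ‖z‖ ≤ k → 0 ≤ U z) (hlap : ∀ z, ‖z‖ ≤ k → Δ U z < 0)
    (hin : ∀ z, ‖z‖ = δ → κ ≤ U z) {x : EuclideanSpace ℝ (Fin n)} (hx : δ ≤ ‖x‖)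
    (hxk : 2 * ‖x‖ ≤ k) :
    κ * δ ^ ((n : ℝ) - 2) / 2 * ‖x‖ ^ (-((n : ℝ) - 2)) ≤ U x := by
  set N : ℝ := (n : ℝ) - 2 with hN
  have hn3 : (3 : ℝ) ≤ n := by exact_mod_cast hn
  have hk : 0 < k := hδ.trans_le hδk
  have hxp : 0 < ‖x‖ := hδ.trans_le hx
  set c := κ * δ ^ N with hc
  have hc0 : 0 < c := by positivity
  obtain ⟨q1, q2, q3⟩ := Sphere.power_data (n := n) N (-(c * k ^ (-N))) c
  have h := Sphere.annulus_ge (ρ := k) hδ (fun z _ hz => hU z hz) q1 q2 (fun z hz hz' => ?_)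
    (fun z hz => ?_) (fun z hz => ?_) hx (by linarith)
  · rw [Sphere.pow_two_rpow hxp.le] at h
    refine le_trans ?_ h
    have h1 : k ^ (-N) ≤ ‖x‖ ^ (-N) / 2 := by
      have h2 : (2 * ‖x‖) ^ N ≤ k ^ N := rpow_le_rpow (by positivity) hxk (by linarith)
      have h3 : (2 : ℝ) * ‖x‖ ^ N ≤ k ^ N := by
        refine le_trans ?_ h2
        rw [mul_rpow two_pos.le hxp.le]
        refine mul_le_mul_of_nonneg_right ?_ (rpow_nonneg hxp.le _)
        calc (2 : ℝ) = 2 ^ (1 : ℝ) := (rpow_one _).symm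
          _ ≤ _ := rpow_le_rpow_of_exponent_le (by norm_num) (by linarith)
      rw [rpow_neg hk.le, rpow_neg hxp.le, inv_eq_one_div, div_le_iff₀ (rpow_pos_of_pos hk N)]
      field_simp
      linarith
    have := mul_le_mul_of_nonneg_left h1 hc0.le
    linarith
  · rw [q3 _ (hδ.trans hz), show N + 2 - (n : ℝ) = 0 by rw [hN]; ring, mul_zero, zero_mul]
    exact hlap z hz'.le
  · rw [Sphere.pow_two_rpow hδ.le, hc]
    have h1 : κ * δ ^ N * δ ^ (-N) = κ := by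
      rw [mul_assoc, ← rpow_add hδ, add_neg_cancel, rpow_zero, mul_one]
    have : 0 ≤ κ * δ ^ N * k ^ (-N) := mul_nonneg hc0.le (rpow_nonneg hk.le _)
    linarith [hin z hz]
  · rw [Sphere.pow_two_rpow hk.le]
    linarith [hpos z hz.le]

/-- A lower power bound for one function on an annulus improves the bound for the other. -/
theorem improve_in {p b c κ : ℝ} (hp : 0 < p) (hc : 0 < c) (hκ : 0 < κ) :
    ∃ c', 0 < c' ∧ ∀ (U V : EuclideanSpace ℝ (Fin n) → ℝ) (R R' : ℝ), 0 < R →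
      (∀ z, R ≤ ‖z‖ → ‖z‖ ≤ R' → ContDiffAt ℝ 2 U z ∧ 0 ≤ U z ∧ κ * V z ^ p ≤ -(Δ U z) ∧
        c * ‖z‖ ^ (-b) ≤ V z) →
      ∀ x, 2 * R ≤ ‖x‖ → 2 * ‖x‖ ≤ R' → c' * ‖x‖ ^ (-(p * b - 2)) ≤ U x := by
  set s₀ := -(p * b) with hs₀
  set C₀ := κ * (c ^ p * ((2 : ℝ) ^ |s₀|)⁻¹) with hC₀
  have hC : 0 < C₀ := by positivity
  set D : ℝ := 32 + 16 * n + 1 with hD
  have hD0 : 0 < D := by positivity
  refine ⟨C₀ / D * (9 / 4), by positivity, fun U V R R' hR hyp x hx hx' => ?_⟩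
  set T := ‖x‖ with hT
  have hT0 : 0 < T := by linarith
  set ε := C₀ * T ^ s₀ / (D * T ^ 2) with hε
  have hε0 : 0 < ε := by positivity
  have hmem : ∀ y : EuclideanSpace ℝ (Fin n), T / 2 ≤ ‖y‖ → ‖y‖ ≤ 2 * T →
      R ≤ ‖y‖ ∧ ‖y‖ ≤ R' := fun y h h' => ⟨by linarith, by linarith⟩
  have hlapu : ∀ y : EuclideanSpace ℝ (Fin n), T / 2 < ‖y‖ → ‖y‖ < 2 * T →
      Δ U y ≤ -(C₀ * T ^ s₀) := by
    intro y hy hy'
    have hyp' : 0 < ‖y‖ := by linarith
    obtain ⟨-, -, heq, hv⟩ := hyp y (hmem y hy.le hy'.le).1 (hmem y hy.le hy'.le).2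
    have h1 := rpow_le_rpow (by positivity) hv hp.le
    rw [mul_rpow hc.le (rpow_nonneg hyp'.le _), ← rpow_mul hyp'.le,
      show -b * p = s₀ by rw [hs₀]; ring] at h1
    have h3 : ((2 : ℝ) ^ |s₀|)⁻¹ * T ^ s₀ ≤ ‖y‖ ^ s₀ := by
      rcases le_or_gt 0 s₀ with hs | hs
      · rw [abs_of_nonneg hs, ← inv_rpow two_pos.le, ← mul_rpow (by norm_num) hT0.le]
        exact rpow_le_rpow (by positivity) (by linarith) hs
      · rw [abs_of_neg hs, rpow_neg two_pos.le, inv_inv, ← mul_rpow two_pos.le hT0.le]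
        exact rpow_le_rpow_of_nonpos hyp' hy'.le hs.le
    have h4 := mul_le_mul_of_nonneg_left h3 (rpow_nonneg hc.le p)
    have h5 := mul_le_mul_of_nonneg_left (h4.trans h1) hκ.le
    rw [hC₀, mul_assoc, mul_assoc]
    linarith
  have h1 : ∀ s : ℝ, HasDerivAt (fun s => ε * ((4 * T ^ 2 - s) * (s - T ^ 2 / 4)))
      (ε * (17 / 4 * T ^ 2 - 2 * s)) s := fun s =>
    ((((hasDerivAt_id s).const_sub (4 * T ^ 2)).mul
      ((hasDerivAt_id s).sub_const (T ^ 2 / 4))).const_mul ε).congr_deriv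
      (by simp only [id_eq]; ring)
  have h2 : ∀ s : ℝ, HasDerivAt (fun s => ε * (17 / 4 * T ^ 2 - 2 * s)) (-2 * ε) s := fun s =>
    ((((hasDerivAt_id s).const_mul 2).const_sub (17 / 4 * T ^ 2)).const_mul ε).congr_deriv
      (by ring)
  have h := Sphere.annulus_ge (ε := T / 2) (ρ := 2 * T) (d2 := fun _ => -2 * ε) (by linarith)
    (fun y hy hy' => (hyp y (hmem y hy hy').1 (hmem y hy hy').2).1) (fun s _ => h1 s)
    (fun s _ => h2 s)
    (fun y hy hy' => ?_) (fun y hy => ?_) (fun y hy => ?_) (x := x) (by linarith) (by linarith)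
  · refine le_trans (le_of_eq ?_) h
    have e : T ^ (-(p * b - 2)) = T ^ s₀ * T ^ 2 := by
      rw [← rpow_two, ← rpow_add hT0, hs₀]; ring_nf
    rw [← hT, e, hε]
    field_simp
    ring
  · refine (hlapu y hy hy').trans_lt ?_
    have e : C₀ * T ^ s₀ = ε * (D * T ^ 2) := by rw [hε]; field_simp
    have hs2 : ‖y‖ ^ 2 ≤ 4 * T ^ 2 := by nlinarith [norm_nonneg y]
    have h5 : 0 < ε * T ^ 2 := by positivity
    have h6 : 0 ≤ ε * (4 * T ^ 2 - ‖y‖ ^ 2) := mul_nonneg hε0.le (by linarith)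
    have h7 : 0 ≤ (n : ℝ) * (ε * (4 * T ^ 2 - ‖y‖ ^ 2)) := mul_nonneg (Nat.cast_nonneg n) h6
    have h8 : 0 ≤ (n : ℝ) * (ε * T ^ 2) := mul_nonneg (Nat.cast_nonneg n) h5.le
    rw [e, hD]
    linarith
  · exact le_trans (le_of_eq (by ring))
      (hyp y (hmem y hy.ge (by linarith)).1 (hmem y hy.ge (by linarith)).2).2.1
  · exact le_trans (le_of_eq (by ring))
      (hyp y (hmem y (by linarith) hy.le).1 (hmem y (by linarith) hy.le).2).2.1

end

end Vale.Agent.P100.Local
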