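import Vale.Agent.P100.MovingSphere

/-!
Interior gradient bound by odd reflection, and two elementary consequences of the minimum
principle on a ball.
-/

open Set Filter Metric Laplacian InnerProductSpace Real
open scoped Topology RealInnerProductSpace

namespace Vale.Agent.P100.Local

noncomputable section

variable {n : ℕ}

/-- A bounded function with bounded Laplacian has bounded derivative at the centre of a ball. -/
theorem grad_bound {U : EuclideanSpace ℝ (Fin n) → ℝ} {y : EuclideanSpace ℝ (Fin n)}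
    {r K F c : ℝ} (hr : 0 < r) (hF : 0 ≤ F)
    (hU : ∀ z, dist z y ≤ r → ContDiffAt ℝ 2 U z) (hK : ∀ z, dist z y ≤ r → |U z - c| ≤ K)
    (hL : ∀ z, dist z y ≤ r → |Δ U z| ≤ F) :
    ‖fderiv ℝ U y‖ ≤ (n : ℝ) * K / r + F * r / 2 := by
  have hK0 : 0 ≤ K := (abs_nonneg _).trans (hK y (by simp [hr.le]))
  refine ContinuousLinearMap.opNorm_le_of_unit_norm (by positivity) fun θ hθ => ?_
  suffices h : ∀ ξ : EuclideanSpace ℝ (Fin n), ‖ξ‖ = 1 →
      fderiv ℝ U y ξ ≤ (n : ℝ) * K / r + F * r / 2 by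
    rw [Real.norm_eq_abs, abs_le]
    have h1 := h (-θ) (by rwa [norm_neg])
    rw [map_neg] at h1
    exact ⟨by linarith, h θ hθ⟩
  clear θ hθ
  intro θ hθ
  refine le_of_forall_pos_le_add fun δ hδ => ?_
  set C : ℝ := 2 * K * n / r ^ 2 + F + 2 * δ / r with hC
  have hC0 : 0 < C := by positivity
  set σ := (ℝ ∙ θ)ᗮ.reflection with hσ
  have hσa : ∀ x, σ x = x - (2 * ⟪θ, x⟫) • θ := fun x => by
    rw [hσ, Submodule.reflection_orthogonal_apply, Submodule.reflection_singleton_apply, neg_sub,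
      ← Nat.cast_smul_eq_nsmul ℝ, smul_smul, hθ]
    simp
  have hσn : ∀ x, ‖σ x‖ = ‖x‖ := fun x => σ.norm_map x
  set H : EuclideanSpace ℝ (Fin n) → ℝ := fun x =>
    2 * K / r ^ 2 * ‖x‖ ^ 2 + C * r * ⟪θ, x⟫ - C * ⟪θ, x⟫ ^ 2 - (U (y + x) - U (y + σ x)) with hH
  set S : Set (EuclideanSpace ℝ (Fin n)) := closedBall 0 r ∩ {x | 0 ≤ ⟪θ, x⟫} with hS
  have hmem : ∀ x, x ∈ S ↔ ‖x‖ ≤ r ∧ 0 ≤ ⟪θ, x⟫ := fun x => by simp [hS]
  have hin : ∀ x : EuclideanSpace ℝ (Fin n), ‖x‖ ≤ r →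
      dist (y + x) y ≤ r ∧ dist (y + σ x) y ≤ r :=
    fun x hx => by simp [dist_eq_norm, hσn, hx]
  have hSc : IsCompact S :=
    (isCompact_closedBall 0 r).inter_right (isClosed_le continuous_const (by fun_prop))
  have hcont : ContinuousOn H S := fun x hx => by
    obtain ⟨h1, h2⟩ := hin x ((hmem x).1 hx).1
    have c1 : ContinuousAt (fun x => U (y + x)) x :=
      (hU _ h1).continuousAt.comp (f := fun x => y + x) (by fun_prop)
    have c2 : ContinuousAt (fun x => U (y + σ x)) x :=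
      (hU _ h2).continuousAt.comp (f := fun x => y + σ x)
        (continuousAt_const.add σ.continuous.continuousAt)
    exact (((by fun_prop : ContinuousAt (fun x : EuclideanSpace ℝ (Fin n) =>
      2 * K / r ^ 2 * ‖x‖ ^ 2 + C * r * ⟪θ, x⟫ - C * ⟪θ, x⟫ ^ 2) x).sub
        (c1.sub c2))).continuousWithinAt
  have h0 : (0 : EuclideanSpace ℝ (Fin n)) ∈ S := (hmem 0).2 ⟨by simp [hr.le], by simp⟩
  obtain ⟨z, hz, hzmin⟩ := hSc.exists_isMinOn ⟨0, h0⟩ hcont
  obtain ⟨hz1, hz2⟩ := (hmem z).1 hz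
  have hbd : 0 ≤ H z := by
    rcases hz2.eq_or_lt with e | hz2
    · simp only [hH, hσa, ← e]
      simp
      positivity
    have ht : ⟪θ, z⟫ ≤ r := by
      have := real_inner_le_norm θ z
      rw [hθ, one_mul] at this
      exact this.trans hz1
    rcases hz1.eq_or_lt with e | hz1
    · obtain ⟨h1, h2⟩ := hin z e.le
      have h1 := abs_le.1 (hK _ h1)
      have h2 := abs_le.1 (hK _ h2)
      have h3 : 0 ≤ C * (r * ⟪θ, z⟫ - ⟪θ, z⟫ ^ 2) := mul_nonneg hC0.le (by nlinarith)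
      simp only [hH, e]
      rw [div_mul_cancel₀ _ (by positivity)]
      linarith
    exfalso
    set b := EuclideanSpace.basisFun (Fin n) ℝ
    have hnhds : S ∈ 𝓝 z := by
      refine inter_mem (mem_of_superset (isOpen_ball.mem_nhds (x := z)
        (show z ∈ ball (0 : EuclideanSpace ℝ (Fin n)) r by simpa using hz1)) ball_subset_closedBall) ?_
      exact mem_of_superset ((isOpen_lt continuous_const (by fun_prop)).mem_nhds
        (show z ∈ {x | 0 < ⟪θ, x⟫} from hz2)) fun x (hx : 0 < ⟪θ, x⟫) => hx.le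
    have hloc : IsLocalMin H z := hzmin.isLocalMin hnhds
    obtain ⟨hi1, hi2⟩ := hin z hz1.le
    have key : ∀ i, 0 ≤ 4 * K / r ^ 2 - 2 * C * ⟪θ, b i⟫ ^ 2 -
        (iteratedFDeriv ℝ 2 U (y + z) ![b i, b i] -
          iteratedFDeriv ℝ 2 U (y + σ z) ![σ (b i), σ (b i)]) := by
      intro i
      obtain ⟨q1, hq1, hq1'⟩ := Vale.Agent.P100.line_deriv (e := b i) (hU _ hi1)
      obtain ⟨q2, hq2, hq2'⟩ := Vale.Agent.P100.line_deriv (e := σ (b i)) (hU _ hi2)
      set P : ℝ → ℝ := fun t => H (z + t • b i) with hP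
      have hPe : P = fun t => (2 * K / r ^ 2 * (‖z‖ ^ 2 + 2 * ⟪z, b i⟫ * t + t ^ 2) +
          C * r * (⟪θ, z⟫ + ⟪θ, b i⟫ * t) - C * (⟪θ, z⟫ + ⟪θ, b i⟫ * t) ^ 2) -
          (U (y + z + t • b i) - U (y + σ z + t • σ (b i))) := by
        funext t
        simp only [hP, hH, map_add, map_smul, inner_add_right, real_inner_smul_right, add_assoc]
        rw [norm_add_sq_real, real_inner_smul_right, norm_smul, b.orthonormal.1 i, mul_one,
          Real.norm_eq_abs, sq_abs]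
        ring
      set Q : ℝ → ℝ := fun t => 2 * K / r ^ 2 * (2 * ⟪z, b i⟫ + 2 * t) +
        C * r * ⟪θ, b i⟫ - C * (2 * (⟪θ, z⟫ + ⟪θ, b i⟫ * t) * ⟪θ, b i⟫) - (q1 t - q2 t) with hQd
      have hQ : ∀ᶠ t in 𝓝 (0 : ℝ), HasDerivAt P (Q t) t := by
        filter_upwards [hq1, hq2] with t t1 t2
        rw [hPe]
        have d1 : HasDerivAt (fun t => ⟪θ, z⟫ + ⟪θ, b i⟫ * t) ⟪θ, b i⟫ t := by
          simpa using ((hasDerivAt_id t).const_mul ⟪θ, b i⟫).const_add ⟪θ, z⟫
        have d2 : HasDerivAt (fun t => ‖z‖ ^ 2 + 2 * ⟪z, b i⟫ * t + t ^ 2)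
            (2 * ⟪z, b i⟫ + 2 * t) t :=
          ((((hasDerivAt_id t).const_mul (2 * ⟪z, b i⟫)).const_add (‖z‖ ^ 2)).add
            (hasDerivAt_pow 2 t)).congr_deriv (by simp)
        exact ((((d2.const_mul (2 * K / r ^ 2)).add (d1.const_mul (C * r))).sub
          ((d1.pow 2).const_mul C)).sub (t1.sub t2)).congr_deriv (by simp [hQd])
      have hQ' : HasDerivAt Q (2 * K / r ^ 2 * 2 - C * (2 * ⟪θ, b i⟫ * ⟪θ, b i⟫) -
          (iteratedFDeriv ℝ 2 U (y + z) ![b i, b i] -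
          iteratedFDeriv ℝ 2 U (y + σ z) ![σ (b i), σ (b i)])) 0 := by
        have d1 : HasDerivAt (fun t : ℝ => 2 * ⟪z, b i⟫ + 2 * t) 2 0 := by
          simpa using ((hasDerivAt_id (0 : ℝ)).const_mul 2).const_add (2 * ⟪z, b i⟫)
        have d2 : HasDerivAt (fun t : ℝ => 2 * (⟪θ, z⟫ + ⟪θ, b i⟫ * t) * ⟪θ, b i⟫)
            (2 * ⟪θ, b i⟫ * ⟪θ, b i⟫) 0 := by
          simpa using ((((hasDerivAt_id (0 : ℝ)).const_mul ⟪θ, b i⟫).const_add ⟪θ, z⟫).const_mul
            2).mul_const ⟪θ, b i⟫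
        exact ((((d1.const_mul (2 * K / r ^ 2)).add_const (C * r * ⟪θ, b i⟫)).sub
          (d2.const_mul C)).sub (hq1'.sub hq2'))
      have hloc' : IsLocalMin H (z + (0 : ℝ) • b i) := by simpa using hloc
      have hm : IsLocalMin P 0 :=
        IsLocalMin.comp_continuous (g := fun t : ℝ => z + t • b i) hloc' (by fun_prop)
      have hnn := Vale.Agent.P100.deriv_deriv_nonneg hm hQ.self_of_nhds.continuousAt
      have he : deriv P =ᶠ[𝓝 0] Q := by filter_upwards [hQ] with t ht using ht.deriv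
      rw [he.deriv_eq, hQ'.deriv] at hnn
      rw [sq]
      ring_nf at hnn ⊢
      linarith
    have hs := Finset.sum_nonneg (s := Finset.univ) fun i _ => key i
    simp only [Finset.sum_sub_distrib, ← Finset.mul_sum, Finset.sum_const, Finset.card_univ,
      Fintype.card_fin, nsmul_eq_mul, b.sum_sq_inner_left, hθ] at hs
    have e1 := laplacian_eq_iteratedFDeriv_orthonormalBasis U b
    have e2 := laplacian_eq_iteratedFDeriv_orthonormalBasis U (b.map σ)
    simp only [OrthonormalBasis.map_apply] at e2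
    have l1 := abs_le.1 (hL _ hi1)
    have l2 := abs_le.1 (hL _ hi2)
    rw [congrFun e1 (y + z)] at l1
    rw [congrFun e2 (y + σ z)] at l2
    have : 2 * C = 4 * K / r ^ 2 * n + 2 * F + 4 * δ / r := by rw [hC]; ring
    have : 0 < 4 * δ / r := by positivity
    nlinarith
  have hall : ∀ x ∈ S, 0 ≤ H x := fun x hx => hbd.trans (hzmin hx)
  -- differentiate along the normal at the centre
  set f : ℝ → ℝ := fun s =>
    2 * K / r ^ 2 * s ^ 2 + C * r * s - C * s ^ 2 - (U (y + s • θ) - U (y - s • θ)) with hf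
  have hfd : HasDerivAt f (C * r - 2 * fderiv ℝ U y θ) 0 := by
    have hd := ((hU y (by simp [hr.le])).differentiableAt (by norm_num)).hasFDerivAt
    have g1 : HasDerivAt (fun s : ℝ => U (y + s • θ)) (fderiv ℝ U y θ) 0 :=
      hd.comp_hasDerivAt_of_eq 0
        (by simpa using ((hasDerivAt_id (0 : ℝ)).smul_const θ).const_add y) (by simp)
    have g2 : HasDerivAt (fun s : ℝ => U (y - s • θ)) (fderiv ℝ U y (-θ)) 0 :=
      hd.comp_hasDerivAt_of_eq 0
        (by simpa using ((hasDerivAt_id (0 : ℝ)).smul_const θ).const_sub y) (by simp)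
    refine (((((hasDerivAt_pow 2 (0 : ℝ)).const_mul (2 * K / r ^ 2)).add
      ((hasDerivAt_id (0 : ℝ)).const_mul (C * r))).sub
      ((hasDerivAt_pow 2 (0 : ℝ)).const_mul C)).sub (g1.sub g2)).congr_deriv ?_
    simp [map_neg]
    ring
  have hev : ∀ᶠ s in 𝓝[>] (0 : ℝ), 0 ≤ slope f 0 s := by
    filter_upwards [Ioo_mem_nhdsGT hr] with s hs
    have hi : ⟪θ, s • θ⟫ = s := by
      rw [real_inner_smul_right, real_inner_self_eq_norm_sq, hθ]; ring
    have hn : ‖s • θ‖ = s := by rw [norm_smul, hθ, mul_one, Real.norm_eq_abs, abs_of_pos hs.1]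
    have h := hall (s • θ) ((hmem _).2 ⟨by rw [hn]; exact hs.2.le, by rw [hi]; exact hs.1.le⟩)
    simp only [hH, hσa, hn, hi] at h
    rw [show y + (s • θ - (2 * s) • θ) = y - s • θ by module] at h
    rw [slope_def_field, show f 0 = 0 by simp [hf], sub_zero, sub_zero]
    exact div_nonneg h hs.1.le
  have hnn : 0 ≤ C * r - 2 * fderiv ℝ U y θ :=
    ge_of_tendsto ((hasDerivAt_iff_tendsto_slope.1 hfd).mono_left
      (nhdsWithin_mono _ fun s (hs : s ∈ Ioi (0 : ℝ)) => ne_of_gt hs)) hev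
  have : C * r = 2 * ((n : ℝ) * K / r) + F * r + 2 * δ := by rw [hC]; field_simp
  linarith

/-- A nonnegative function with Laplacian at most `-c` on a ball is large at the centre. -/
theorem center_ge (hn : 0 < n) {U : EuclideanSpace ℝ (Fin n) → ℝ} {ρ c : ℝ} (hρ : 0 < ρ)
    (hc : 0 < c) (hU : ∀ z, ‖z‖ ≤ ρ → ContDiffAt ℝ 2 U z) (hpos : ∀ z, ‖z‖ ≤ ρ → 0 ≤ U z)
    (hL : ∀ z, ‖z‖ ≤ ρ → Δ U z ≤ -c) : c / (4 * n) * ρ ^ 2 ≤ U 0 := by
  set ε := c / (4 * n) with hε
  have hε0 : 0 < ε := by positivity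
  obtain ⟨z, hz, hzmin⟩ := (isCompact_closedBall (0 : EuclideanSpace ℝ (Fin n)) ρ).exists_isMinOn
    ⟨0, by simp [hρ.le]⟩ (f := fun x => U x - ε * (ρ ^ 2 - ‖x‖ ^ 2)) (fun x hx =>
      ((hU x (mem_closedBall_zero_iff.1 hx)).continuousAt.sub (by fun_prop)).continuousWithinAt)
  have h0 : U z - ε * (ρ ^ 2 - ‖z‖ ^ 2) ≤ U 0 - ε * (ρ ^ 2 - ‖(0 : EuclideanSpace ℝ (Fin n))‖ ^ 2) :=
    hzmin (mem_closedBall_self hρ.le)
  simp only [norm_zero, ne_eq, OfNat.ofNat_ne_zero, not_false_eq_true, zero_pow, sub_zero] at h0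
  rw [mem_closedBall_zero_iff] at hz
  rcases hz.eq_or_lt with e | hz'
  · rw [e] at h0
    linarith [hpos z hz]
  exfalso
  have hloc : IsLocalMin (fun x => U x - ε * (ρ ^ 2 - ‖x‖ ^ 2)) z :=
    hzmin.isLocalMin (mem_of_superset (isOpen_ball.mem_nhds (x := z)
      (show z ∈ ball (0 : EuclideanSpace ℝ (Fin n)) ρ by simpa using hz')) ball_subset_closedBall)
  have h := Vale.Agent.P100.laplacian_ge_radial (φ := fun s => ε * (ρ ^ 2 - s))
    (d1 := fun _ => -ε) (d2 := 0) (hU z hz)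
    (Eventually.of_forall fun s => by simpa using ((hasDerivAt_id s).const_sub (ρ ^ 2)).const_mul ε)
    (hasDerivAt_const _ _) hloc
  have h2 := hL z hz
  have : 2 * (n : ℝ) * ε = c / 2 := by rw [hε]; field_simp; ring
  linarith

end

end Vale.Agent.P100.Local
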