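import Vale.Agent.P100.MovingSphere

/-!
Moving spheres inside a ball for the system `-Δ u = f v ^ p`, `-Δ v = g u ^ q` whose coefficients
vary slowly. The spheres move while the data on the boundary of the ball dominate the reflection.
-/

open Set Filter Metric Laplacian InnerProductSpace Real
open scoped Topology RealInnerProductSpace

namespace Vale.Agent.P100.Local

open Vale.Agent.P100.Sphere

noncomputable section

variable {n : ℕ} {a : ℝ} {u : EuclideanSpace ℝ (Fin n) → ℝ}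

/-- Comparison with the reflection outside the sphere of radius `l` and inside the ball. -/
def AboveIn (a : ℝ) (u : EuclideanSpace ℝ (Fin n) → ℝ) (R l : ℝ) : Prop :=
  ∀ x, l ≤ ‖x‖ → ‖x‖ ≤ R → Sphere.refl a u l x ≤ u x

theorem norm_invp_le {l R : ℝ} (hl : 0 < l) {x : EuclideanSpace ℝ (Fin n)} (hx : l ≤ ‖x‖)
    (hxR : ‖x‖ ≤ R) : ‖invp l x‖ ≤ l ∧ ‖invp l x‖ ≤ R := by
  have hxp : 0 < ‖x‖ := hl.trans_le hx
  have h : ‖invp l x‖ ≤ l := by
    rw [norm_invp hl (norm_pos_iff.1 hxp), div_le_iff₀ hxp]; nlinarith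
  exact ⟨h, h.trans (hx.trans hxR)⟩

theorem rayD_zero : rayD a u 0 = a * u 0 := by simp [rayD]

theorem continuousAt_rayD_in {x : EuclideanSpace ℝ (Fin n)} (hu : ContDiffAt ℝ 2 u x) :
    ContinuousAt (rayD a u) x :=
  (hu.continuousAt.const_mul a).add
    ((hu.continuousAt_fderiv (by norm_num)).clm_apply continuousAt_id)

theorem rayD_nonneg_in {L R : ℝ} (ha : 0 ≤ a) (hu0 : 0 ≤ u 0) (hLR : L ≤ R)
    (hu2 : ∀ x, ‖x‖ ≤ R → ContDiffAt ℝ 2 u x) (hP : ∀ l, 0 < l → l < L → AboveIn a u R l)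
    {y : EuclideanSpace ℝ (Fin n)} (hyL : ‖y‖ < L) : 0 ≤ rayD a u y := by
  rcases eq_or_ne y 0 with rfl | hy
  · rw [rayD_zero]; positivity
  have hr : 0 < ‖y‖ := norm_pos_iff.2 hy
  set x := ‖y‖⁻¹ • y with hxd
  have hx : ‖x‖ = 1 := norm_smul_inv_norm hy
  have hxy : ‖y‖ • x = y := by rw [hxd, smul_smul, mul_inv_cancel₀ hr.ne', one_smul]
  have hd := hasDerivAt_ray a (u := u) (x := x) hr
    ((hu2 _ (by rw [hxy]; linarith)).differentiableAt (by norm_num))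
  rw [hxy] at hd
  have hmono : MonotoneOn (fun t : ℝ => t ^ a * u (t • x)) (Ioc 0 L) := by
    intro r hr s hs hrs
    obtain ⟨hr, -⟩ := hr
    obtain ⟨hs, hsL⟩ := hs
    rcases hrs.eq_or_lt with rfl | hlt
    · exact le_rfl
    have hl : 0 < √(r * s) := sqrt_pos.2 (mul_pos hr hs)
    have hls : √(r * s) < s := by
      rw [sqrt_lt' hs, sq]
      exact mul_lt_mul_of_pos_right hlt hs
    have hnx : ‖s • x‖ = s := by rw [norm_smul, hx, mul_one, Real.norm_eq_abs, abs_of_pos hs]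
    have h := hP _ hl (hls.trans_le hsL) (s • x) (by rw [hnx]; exact hls.le)
      (by rw [hnx]; exact hsL.trans hLR)
    rw [Sphere.refl, hnx, invp_smul hx hs, sq_sqrt (mul_pos hr hs).le, mul_div_assoc, div_self hs.ne',
      mul_one] at h
    have e : (√(r * s) / s) ^ (2 * a) = r ^ a / s ^ a := by
      rw [rpow_mul (by positivity), rpow_two, div_pow, sq_sqrt (mul_pos hr hs).le,
        show r * s / s ^ 2 = r / s by field_simp, div_rpow hr.le hs.le]
    rw [e, div_mul_eq_mul_div, div_le_iff₀ (rpow_pos_of_pos hs a), mul_comm (u (s • x))] at h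
    exact h
  have h := hmono.derivWithin_nonneg (x := ‖y‖)
  rw [derivWithin_of_mem_nhds (Ioc_mem_nhds hr hyL), hd.deriv] at h
  exact nonneg_of_mul_nonneg_right h (rpow_pos_of_pos hr _)

theorem above_of_ray_in {L R : ℝ} (hLR : L ≤ R) (hu2 : ∀ x, ‖x‖ ≤ R → ContDiffAt ℝ 2 u x)
    (hU : ∀ y, y ≠ 0 → ‖y‖ < L → 0 ≤ rayD a u y) {l : ℝ} (hl : 0 < l)
    {x : EuclideanSpace ℝ (Fin n)} (hlx : l ≤ ‖x‖) (hxL : ‖x‖ < L) : Sphere.refl a u l x ≤ u x := by
  have hx0 : x ≠ 0 := norm_pos_iff.1 (hl.trans_le hlx)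
  have hs : 0 < ‖x‖ := norm_pos_iff.2 hx0
  set θ := ‖x‖⁻¹ • x with hθd
  have hθ : ‖θ‖ = 1 := norm_smul_inv_norm hx0
  have hxθ : ‖x‖ • θ = x := by rw [hθd, smul_smul, mul_inv_cancel₀ hs.ne', one_smul]
  have hr : 0 < l ^ 2 / ‖x‖ := by positivity
  have hrs : l ^ 2 / ‖x‖ ≤ ‖x‖ := by
    rw [div_le_iff₀ hs, sq]; exact mul_le_mul hlx hlx hl.le hs.le
  have hn : ∀ t : ℝ, 0 < t → ‖t • θ‖ = t := fun t ht => by
    rw [norm_smul, hθ, mul_one, Real.norm_eq_abs, abs_of_pos ht]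
  have hd : ∀ t ∈ Ioo (0 : ℝ) L, HasDerivAt (fun t : ℝ => t ^ a * u (t • θ))
      (t ^ (a - 1) * rayD a u (t • θ)) t := fun t ht => hasDerivAt_ray a ht.1
    ((hu2 _ (by rw [hn t ht.1]; linarith [ht.2])).differentiableAt (by norm_num))
  have hmono : MonotoneOn (fun t : ℝ => t ^ a * u (t • θ)) (Ioo 0 L) := by
    refine monotoneOn_of_deriv_nonneg (convex_Ioo 0 L)
      (fun t ht => (hd t ht).continuousAt.continuousWithinAt)
      (fun t ht => (hd t (interior_subset ht)).differentiableAt.differentiableWithinAt)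
      fun t ht => ?_
    rw [interior_Ioo] at ht
    rw [(hd t ht).deriv]
    exact mul_nonneg (rpow_nonneg ht.1.le _)
      (hU _ (norm_pos_iff.1 ((hn t ht.1).symm ▸ ht.1)) ((hn t ht.1).symm ▸ ht.2))
  have h : (l ^ 2 / ‖x‖) ^ a * u ((l ^ 2 / ‖x‖) • θ) ≤ ‖x‖ ^ a * u (‖x‖ • θ) :=
    hmono ⟨hr, hrs.trans_lt hxL⟩ ⟨hs, hxL⟩ hrs
  rw [hxθ] at h
  have e1 : invp l x = (l ^ 2 / ‖x‖) • θ := by rw [← invp_smul hθ hs, hxθ]
  have e2 : (l / ‖x‖) ^ (2 * a) = (l ^ 2 / ‖x‖) ^ a / ‖x‖ ^ a := by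
    rw [← div_rpow hr.le hs.le, rpow_mul (by positivity), rpow_two]
    congr 1
    field_simp
  rw [Sphere.refl, e1, e2, div_mul_eq_mul_div, div_le_iff₀ (rpow_pos_of_pos hs a), mul_comm (u x)]
  exact h

/-- If the comparison holds below `L` it holds at `L`. -/
theorem closed_in {L R : ℝ} (hL : 0 < L) (hu2 : ∀ x, ‖x‖ ≤ R → ContDiffAt ℝ 2 u x)
    (hP : ∀ l, 0 < l → l < L → AboveIn a u R l) : AboveIn a u R L := by
  intro x hx hxR
  rcases hx.eq_or_lt with h | h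
  · rw [refl_self hL h.symm]
  have hx0 : 0 < ‖x‖ := hL.trans h
  have hc : ContinuousAt (fun l : ℝ => Sphere.refl a u l x) L := by
    simp only [Sphere.refl, invp]
    refine ((continuousAt_id.div_const _).rpow_const
      (Or.inl (by simp only [id_eq]; positivity))).mul ?_
    exact ((hu2 _ (norm_invp_le hL hx hxR).2).continuousAt).comp
      (f := fun l : ℝ => (l ^ 2 / ‖x‖ ^ 2) • x) (by fun_prop)
  refine le_of_tendsto (hc.tendsto.mono_left (nhdsWithin_le_nhds (s := Iio L))) ?_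
  filter_upwards [Ioo_mem_nhdsLT hL] with l hl using hP l hl.1 hl.2 x (hl.2.le.trans h.le) hxR

/-- At a radius up to which the comparison holds it is strict. -/
theorem strict_in (hn : 3 ≤ n) {b p L R m : ℝ} {v f : EuclideanSpace ℝ (Fin n) → ℝ}
    (hp : 0 < p) (hL : 0 < L) (hLR : L < R) (ha : (n : ℝ) - 2 ≤ 2 * a)
    (hu2 : ∀ x, ‖x‖ ≤ R → ContDiffAt ℝ 2 u x) (hup : ∀ x, ‖x‖ ≤ R → 0 < u x)
    (hvp : ∀ x, ‖x‖ ≤ R → 0 < v x) (hfp : ∀ x, ‖x‖ ≤ R → 0 < f x)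
    (heq : ∀ x, ‖x‖ ≤ R → -(Δ u x) = f x * v x ^ p)
    (hP : ∀ l, 0 < l → l < L → AboveIn a u R l) (hv : AboveIn b v R L)
    (hf : ∀ x, L < ‖x‖ → ‖x‖ ≤ R → (L / ‖x‖) ^ (2 * (2 + a - p * b)) * f (invp L x) < f x)
    (hm : 0 < m) (hbd : ∀ x, ‖x‖ = R → m ≤ u x - Sphere.refl a u L x) :
    (∀ x, ‖x‖ = L → 0 < rayD a u x) ∧
      ∀ x, L ≤ ‖x‖ → ‖x‖ ≤ R → m * (1 - (L / ‖x‖) ^ ((n : ℝ) - 2)) ≤ u x - Sphere.refl a u L x := by
  set N : ℝ := (n : ℝ) - 2 with hN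
  have hN0 : 0 < N := by
    have : (3 : ℝ) ≤ n := by exact_mod_cast hn
    linarith
  have ha0 : 0 ≤ a := by linarith
  set w : EuclideanSpace ℝ (Fin n) → ℝ := fun z => u z - Sphere.refl a u L z with hw
  have hw2 : ∀ z : EuclideanSpace ℝ (Fin n), L ≤ ‖z‖ → ‖z‖ ≤ R → ContDiffAt ℝ 2 w z :=
    fun z hz hzR => (hu2 z hzR).sub
      (laplacian_refl hL (norm_pos_iff.1 (hL.trans_le hz)) (hu2 _ (norm_invp_le hL hz hzR).2)).1
  have hlap : ∀ z : EuclideanSpace ℝ (Fin n), L < ‖z‖ → ‖z‖ ≤ R → Δ w z < 0 := by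
    intro z hz hzR
    have hzp := hL.trans hz
    have hz0 := norm_pos_iff.1 hzp
    obtain ⟨-, hyR⟩ := norm_invp_le hL hz.le hzR
    have hyL : ‖invp L z‖ < L := by rw [norm_invp hL hz0, div_lt_iff₀ hzp]; nlinarith
    set y := invp L z with hyd
    obtain ⟨hK2, hKl⟩ := laplacian_refl (a := a) hL hz0 (hu2 _ hyR)
    rw [show Δ w z = Δ u z - Δ (Sphere.refl a u L) z from (hu2 z hzR).laplacian_sub hK2, hKl]
    have hU : 0 ≤ a * u y + fderiv ℝ u y y :=
      rayD_nonneg_in ha0 (hup 0 (by simp; linarith)).le hLR.le hu2 hP hyL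
    set ρ := L / ‖z‖ with hρ
    have hρ0 : 0 < ρ := div_pos hL hzp
    have hsrc : ρ ^ (2 * a) * (L ^ 2 / ‖z‖ ^ 2) ^ 2 * (f y * v y ^ p) =
        ρ ^ (2 * (2 + a - p * b)) * f y * Sphere.refl b v L z ^ p := by
      rw [show L ^ 2 / ‖z‖ ^ 2 = ρ ^ 2 by rw [hρ, div_pow], Sphere.refl, ← hρ, ← hyd,
        mul_rpow (rpow_nonneg hρ0.le _) (hvp y hyR).le, ← rpow_mul hρ0.le, ← rpow_natCast ρ 2,
        ← rpow_natCast (ρ ^ ((2 : ℕ) : ℝ)) 2, ← rpow_mul hρ0.le]
      rw [show 2 * (2 + a - p * b) = 2 * a + ((2 : ℕ) : ℝ) * ((2 : ℕ) : ℝ) - 2 * b * p by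
        push_cast; ring]
      rw [rpow_sub hρ0, rpow_add hρ0]
      field_simp
    have h1 : 0 ≤ ρ ^ (2 * a) / ‖z‖ ^ 2 * (2 * (2 * a + 2 - n) * (a * u y + fderiv ℝ u y y)) :=
      mul_nonneg (by positivity) (mul_nonneg (by linarith) hU)
    have hrv : 0 < Sphere.refl b v L z := mul_pos (rpow_pos_of_pos hρ0 _) (hvp y hyR)
    have h2 : ρ ^ (2 * (2 + a - p * b)) * f y * Sphere.refl b v L z ^ p < f z * v z ^ p :=
      (mul_lt_mul_of_pos_right (hf z hz hzR) (rpow_pos_of_pos hrv p)).trans_le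
        (mul_le_mul_of_nonneg_left (rpow_le_rpow hrv.le (hv z hz.le hzR) hp.le) (hfp z hzR).le)
    have h3 := heq z hzR
    have h4 : Δ u y = -(f y * v y ^ p) := by linarith [heq y hyR]
    rw [h4]
    linarith
  obtain ⟨q1, q2, q3⟩ := power_data (n := n) N m (-(m * L ^ N))
  have hbar : ∀ y : EuclideanSpace ℝ (Fin n), L ≤ ‖y‖ → ‖y‖ ≤ R →
      m + -(m * L ^ N) * (‖y‖ ^ 2) ^ (-N / 2) ≤ w y := by
    intro y hy hy'
    refine annulus_ge hL hw2 q1 q2 (fun y hy hy' => ?_) (fun y hy => ?_)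
      (fun y hy => ?_) hy hy'
    · rw [q3 _ (hL.trans hy), show N + 2 - (n : ℝ) = 0 by rw [hN]; ring, mul_zero, zero_mul]
      exact hlap y hy hy'.le
    · rw [pow_two_rpow hL.le, neg_mul, mul_assoc, ← rpow_add hL, add_neg_cancel, rpow_zero]
      simp [hw, refl_self hL hy]
    · rw [pow_two_rpow (hL.trans hLR).le]
      have : 0 ≤ m * L ^ N * R ^ (-N) :=
        mul_nonneg (by positivity) (rpow_nonneg (hL.trans hLR).le _)
      have := hbd y hy
      simp only [hw]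
      linarith
  refine ⟨fun z hz => ?_, fun x hx hxR => ?_⟩
  · set θ := L⁻¹ • z with hθd
    have hθ : ‖θ‖ = 1 := by rw [hθd, norm_smul, hz, norm_inv, Real.norm_eq_abs, abs_of_pos hL,
      inv_mul_cancel₀ hL.ne']
    have hθz : L • θ = z := by rw [hθd, smul_smul, mul_inv_cancel₀ hL.ne', one_smul]
    set F : ℝ → ℝ := fun t =>
      u (t • θ) - (L / t) ^ (2 * a) * u ((L ^ 2 / t) • θ) - (m - m * L ^ N * t ^ (-N)) with hF
    have hfd : HasDerivAt F (2 / L * rayD a u z - m * N / L) L := by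
      have hud : HasFDerivAt u (fderiv ℝ u z) z :=
        ((hu2 z (by rw [hz]; exact hLR.le)).differentiableAt (by norm_num)).hasFDerivAt
      have g1 : HasDerivAt (fun t : ℝ => u (t • θ)) (fderiv ℝ u z θ) L :=
        hud.comp_hasDerivAt_of_eq L (by simpa using (hasDerivAt_id L).smul_const θ) hθz.symm
      have g2 : HasDerivAt (fun t : ℝ => L ^ 2 / t) (-1) L :=
        ((hasDerivAt_const L (L ^ 2)).div (hasDerivAt_id L) hL.ne').congr_deriv (by
          simp only [id_eq]; field_simp; ring)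
      have g3 : HasDerivAt (fun t : ℝ => u ((L ^ 2 / t) • θ)) (fderiv ℝ u z ((-1 : ℝ) • θ)) L :=
        hud.comp_hasDerivAt_of_eq L (g2.smul_const θ) (by
          rw [show L ^ 2 / L = L by field_simp, hθz])
      have g4 : HasDerivAt (fun t : ℝ => (L / t) ^ (2 * a)) (-(2 * a) / L) L :=
        (((hasDerivAt_const L L).div (hasDerivAt_id L) hL.ne').rpow_const
          (Or.inl (by simp [hL.ne']))).congr_deriv (by
            simp only [id_eq, Pi.div_apply, div_self hL.ne', one_rpow]; field_simp; ring)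
      have g5 : HasDerivAt (fun t : ℝ => m - m * L ^ N * t ^ (-N)) (m * N / L) L :=
        ((hasDerivAt_pw (m * L ^ N) (-N) L hL).const_sub m).congr_deriv (by
          rw [rpow_sub_one hL.ne', rpow_neg hL.le]; field_simp)
      refine ((g1.sub (g4.mul g3)).sub g5).congr_deriv ?_
      have hDz : fderiv ℝ u z z = L * fderiv ℝ u z θ := by
        conv_lhs => arg 2; rw [← hθz]
        rw [map_smul, smul_eq_mul]
      simp only [rayD, hDz, map_smul, smul_eq_mul, div_self hL.ne', one_rpow,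
        show L ^ 2 / L = L by field_simp, hθz]
      field_simp
      ring
    have hF0 : F L = 0 := by
      simp only [hF, div_self hL.ne', one_rpow, show L ^ 2 / L = L by field_simp,
        mul_assoc, ← rpow_add hL, add_neg_cancel, rpow_zero]
      ring
    have hev : ∀ᶠ t in 𝓝[>] L, 0 ≤ slope F L t := by
      filter_upwards [Ioo_mem_nhdsGT hLR] with t ht
      have htp : 0 < t := hL.trans ht.1
      have hn : ‖t • θ‖ = t := by rw [norm_smul, hθ, mul_one, Real.norm_eq_abs, abs_of_pos htp]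
      have := hbar (t • θ) (by rw [hn]; exact ht.1.le) (by rw [hn]; exact ht.2.le)
      rw [hn, pow_two_rpow htp.le] at this
      simp only [hw, Sphere.refl, hn, invp_smul hθ htp] at this
      rw [slope_def_field, hF0, sub_zero]
      refine div_nonneg ?_ (by linarith [ht.1])
      simp only [hF]
      linarith
    have hnn : 0 ≤ 2 / L * rayD a u z - m * N / L :=
      ge_of_tendsto ((hasDerivAt_iff_tendsto_slope.1 hfd).mono_left
        (nhdsWithin_mono _ fun t (ht : t ∈ Ioi L) => ne_of_gt ht)) hev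
    have : 0 < m * N / L := by positivity
    exact pos_of_mul_pos_right (show 0 < 2 / L * rayD a u z by linarith) (by positivity)
  · have h := hbar x hx hxR
    rw [pow_two_rpow (norm_nonneg x)] at h
    rw [div_rpow hL.le (norm_nonneg x)]
    rw [rpow_neg (norm_nonneg x)] at h
    simp only [hw] at h
    rw [div_eq_mul_inv]
    linarith

/-- The comparison persists for slightly larger radii. -/
theorem open_in {L R m : ℝ} (hn : 3 ≤ n) (hL : 0 < L) (hLR : L < R) (ha : 0 ≤ a)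
    (hu2 : ∀ x, ‖x‖ ≤ R → ContDiffAt ℝ 2 u x) (hu0 : 0 ≤ u 0)
    (hP : ∀ l, 0 < l → l < L → AboveIn a u R l) (hU : ∀ x, ‖x‖ = L → 0 < rayD a u x)
    (hm : 0 < m) (hfar : ∀ x, L ≤ ‖x‖ → ‖x‖ ≤ R →
      m * (1 - (L / ‖x‖) ^ ((n : ℝ) - 2)) ≤ u x - Sphere.refl a u L x) :
    ∃ δ : ℝ, 0 < δ ∧ ∀ l, L ≤ l → l < L + δ → AboveIn a u R l := by
  have hn3 : (3 : ℝ) ≤ n := by exact_mod_cast hn
  obtain ⟨δ₁, hδ₁, hδR, hband⟩ : ∃ δ₁ : ℝ, 0 < δ₁ ∧ L + δ₁ ≤ R ∧
      ∀ y : EuclideanSpace ℝ (Fin n), ‖y‖ < L + δ₁ → 0 ≤ rayD a u y := by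
    have hK := isCompact_sphere (0 : EuclideanSpace ℝ (Fin n)) 1
    have hev : ∀ x ∈ sphere (0 : EuclideanSpace ℝ (Fin n)) 1,
        ∀ᶠ z : ℝ × EuclideanSpace ℝ (Fin n) in 𝓝 (L, x), 0 < rayD a u (z.1 • z.2) := by
      intro x hx
      rw [mem_sphere_zero_iff_norm] at hx
      have hLx : ‖L • x‖ = L := by rw [norm_smul, hx, mul_one, Real.norm_eq_abs, abs_of_pos hL]
      have hc : ContinuousAt (fun z : ℝ × EuclideanSpace ℝ (Fin n) => rayD a u (z.1 • z.2))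
          (L, x) :=
        ContinuousAt.comp (f := fun z : ℝ × EuclideanSpace ℝ (Fin n) => z.1 • z.2)
          (continuousAt_rayD_in (hu2 _ (by rw [hLx]; exact hLR.le))) (by fun_prop)
      exact hc.eventually (eventually_gt_nhds (hU _ hLx))
    obtain ⟨η, hη, hball⟩ :=
      Metric.eventually_nhds_iff.1 (hK.eventually_forall_of_forall_eventually
        (P := fun t y => 0 < rayD a u (t • y)) hev)
    refine ⟨min η (R - L), lt_min hη (by linarith), by linarith [min_le_right η (R - L)],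
      fun y hyL => ?_⟩
    rcases lt_or_ge ‖y‖ L with h | h
    · exact rayD_nonneg_in ha hu0 hLR.le hu2 hP h
    · have hy : y ≠ 0 := norm_pos_iff.1 (hL.trans_le h)
      have hp := norm_pos_iff.2 hy
      have := hball (y := ‖y‖)
        (by rw [Real.dist_eq, abs_lt]; constructor <;> linarith [min_le_left η (R - L)])
        (‖y‖⁻¹ • y) (by rw [mem_sphere_zero_iff_norm]; exact norm_smul_inv_norm hy)
      rw [smul_smul, mul_inv_cancel₀ hp.ne', one_smul] at this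
      exact this.le
  set ρ := L + δ₁ / 2 with hρ
  have hρ0 : 0 < ρ := by linarith
  set S : Set (EuclideanSpace ℝ (Fin n)) := closedBall 0 R ∩ {x | ρ ≤ ‖x‖} with hS
  have hSc : IsCompact S :=
    (isCompact_closedBall 0 R).inter_right (isClosed_le continuous_const continuous_norm)
  have hev : ∀ x ∈ S, ∀ᶠ z : ℝ × EuclideanSpace ℝ (Fin n) in 𝓝 (L, x),
      Sphere.refl a u z.1 z.2 ≤ u z.2 := by
    intro x hx
    have hxR : ‖x‖ ≤ R := mem_closedBall_zero_iff.1 hx.1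
    have hxρ : ρ ≤ ‖x‖ := hx.2
    have hxp : 0 < ‖x‖ := hρ0.trans_le hxρ
    have hlt : Sphere.refl a u L x < u x := by
      have h1 : (L / ‖x‖) ^ ((n : ℝ) - 2) < 1 :=
        rpow_lt_one (by positivity) ((div_lt_one hxp).2 (by linarith)) (by linarith)
      have h2 := hfar x (by linarith) hxR
      have := mul_pos hm (show (0 : ℝ) < 1 - (L / ‖x‖) ^ ((n : ℝ) - 2) by linarith)
      linarith
    have hc1 : ContinuousAt (fun z : ℝ × EuclideanSpace ℝ (Fin n) => Sphere.refl a u z.1 z.2) (L, x) := by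
      simp only [Sphere.refl, invp]
      refine ((continuousAt_fst.div continuousAt_snd.norm hxp.ne').rpow_const
        (Or.inl (div_ne_zero hL.ne' hxp.ne'))).mul ?_
      exact ((hu2 _ (norm_invp_le hL (by linarith) hxR).2).continuousAt).comp
        (f := fun z : ℝ × EuclideanSpace ℝ (Fin n) => (z.1 ^ 2 / ‖z.2‖ ^ 2) • z.2)
        (((continuousAt_fst.pow 2).div (continuousAt_snd.norm.pow 2)
          (pow_ne_zero 2 hxp.ne')).smul continuousAt_snd)
    have hc2 : ContinuousAt (fun z : ℝ × EuclideanSpace ℝ (Fin n) => u z.2) (L, x) :=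
      (hu2 x hxR).continuousAt.comp (f := fun z : ℝ × EuclideanSpace ℝ (Fin n) => z.2)
        continuousAt_snd
    exact (hc1.eventually_lt hc2 hlt).mono fun z hz => hz.le
  obtain ⟨η, hη, hball⟩ := Metric.eventually_nhds_iff.1
    (hSc.eventually_forall_of_forall_eventually (P := fun l y => Sphere.refl a u l y ≤ u y) hev)
  refine ⟨min η (δ₁ / 2), lt_min hη (half_pos hδ₁), fun l hLl hlδ x hx hxR => ?_⟩
  have hl1 : l < L + η := lt_of_lt_of_le hlδ (by linarith [min_le_left η (δ₁ / 2)])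
  rcases lt_or_ge ‖x‖ ρ with h | h
  · exact above_of_ray_in hδR hu2 (fun y _ hy => hband y hy) (hL.trans_le hLl) hx (by linarith)
  exact hball (y := l) (by rw [Real.dist_eq, abs_lt]; constructor <;> linarith) x
    ⟨mem_closedBall_zero_iff.2 hxR, h⟩

/-- For small radii the comparison holds. -/
theorem small_in {R : ℝ} (hR : 0 < R) (ha : 0 < a)
    (hu2 : ∀ x, ‖x‖ ≤ R → ContDiffAt ℝ 2 u x) (hup : ∀ x, ‖x‖ ≤ R → 0 < u x) :
    ∃ δ : ℝ, 0 < δ ∧ ∀ l, 0 < l → l < δ → AboveIn a u R l := by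
  have h0 : 0 < rayD a u 0 := by
    rw [rayD_zero]; exact mul_pos ha (hup 0 (by simp [hR.le]))
  obtain ⟨η, hη, hball⟩ := Metric.eventually_nhds_iff.1
    ((continuousAt_rayD_in (a := a) (hu2 0 (by simp [hR.le]))).eventually (eventually_gt_nhds h0))
  set δ := min η R with hδ
  have hδ0 : 0 < δ := lt_min hη hR
  obtain ⟨K, hK⟩ := (isCompact_closedBall (0 : EuclideanSpace ℝ (Fin n)) R).bddAbove_image
    (f := u) (fun x hx => (hu2 x (mem_closedBall_zero_iff.1 hx)).continuousAt.continuousWithinAt)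
  obtain ⟨z, hz, hzmin⟩ := (isCompact_closedBall (0 : EuclideanSpace ℝ (Fin n)) R).exists_isMinOn
    ⟨0, by simp [hR.le]⟩ (f := u)
    (fun x hx => (hu2 x (mem_closedBall_zero_iff.1 hx)).continuousAt.continuousWithinAt)
  have hm : 0 < u z := hup z (mem_closedBall_zero_iff.1 hz)
  have hT : Tendsto (fun l : ℝ => (l / δ) ^ (2 * a) * K) (𝓝 0) (𝓝 0) := by
    have hc : Continuous fun l : ℝ => (l / δ) ^ (2 * a) * K :=
      ((Real.continuous_rpow_const (by linarith)).comp (continuous_id.div_const δ)).mul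
        continuous_const
    simpa [zero_rpow (show (2 * a : ℝ) ≠ 0 by linarith)] using hc.tendsto 0
  obtain ⟨τ, hτ, hτb⟩ := Metric.eventually_nhds_iff.1 (hT.eventually (eventually_le_nhds hm))
  refine ⟨τ, hτ, fun l hl hlτ x hx hxR => ?_⟩
  rcases lt_or_ge ‖x‖ δ with h | h
  · refine above_of_ray_in (min_le_right η R) hu2 (fun y _ hy => (hball ?_).le) hl hx h
    rw [dist_zero_right]; exact hy.trans_le (min_le_left η R)
  obtain ⟨-, hyR⟩ := norm_invp_le hl hx hxR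
  have h1 := hτb (show dist l 0 < τ by rwa [Real.dist_eq, sub_zero, abs_of_pos hl])
  have h2 : Sphere.refl a u l x ≤ (l / δ) ^ (2 * a) * K :=
    mul_le_mul (rpow_le_rpow (by positivity) (div_le_div_of_nonneg_left hl.le hδ0 h) (by linarith))
      (hK (mem_image_of_mem _ (mem_closedBall_zero_iff.2 hyR))) (hup _ hyR).le (by positivity)
  exact h2.trans (h1.trans (hzmin (mem_closedBall_zero_iff.2 hxR)))

/-- Moving spheres inside a ball give monotonicity along rays up to `Λ`. -/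
theorem ball_mono (hn : 3 ≤ n) {p q b Λ R K : ℝ} {v f g : EuclideanSpace ℝ (Fin n) → ℝ}
    (hp : 0 < p) (hq : 0 < q) (hΛ : 0 < Λ) (hΛR : Λ < R)
    (ha : (n : ℝ) - 2 ≤ 2 * a) (hb : (n : ℝ) - 2 ≤ 2 * b)
    (hu2 : ∀ x, ‖x‖ ≤ R → ContDiffAt ℝ 2 u x) (hv2 : ∀ x, ‖x‖ ≤ R → ContDiffAt ℝ 2 v x)
    (hup : ∀ x, ‖x‖ ≤ R → 0 < u x) (hvp : ∀ x, ‖x‖ ≤ R → 0 < v x)
    (hfp : ∀ x, ‖x‖ ≤ R → 0 < f x) (hgp : ∀ x, ‖x‖ ≤ R → 0 < g x)
    (heu : ∀ x, ‖x‖ ≤ R → -(Δ u x) = f x * v x ^ p)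
    (hev : ∀ x, ‖x‖ ≤ R → -(Δ v x) = g x * u x ^ q)
    (hK : ∀ x, ‖x‖ ≤ R → u x ≤ K ∧ v x ≤ K)
    (hf : ∀ l x, 0 < l → l ≤ Λ → l < ‖x‖ → ‖x‖ ≤ R →
      (l / ‖x‖) ^ (2 * (2 + a - p * b)) * f (invp l x) < f x)
    (hg : ∀ l x, 0 < l → l ≤ Λ → l < ‖x‖ → ‖x‖ ≤ R →
      (l / ‖x‖) ^ (2 * (2 + b - q * a)) * g (invp l x) < g x)
    (hbd : ∀ x, ‖x‖ = R → (Λ / R) ^ (2 * a) * K < u x ∧ (Λ / R) ^ (2 * b) * K < v x)
    {y : EuclideanSpace ℝ (Fin n)} (hy : ‖y‖ < Λ) : 0 ≤ rayD a u y ∧ 0 ≤ rayD b v y := by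
  have hn3 : (3 : ℝ) ≤ n := by exact_mod_cast hn
  have ha0 : 0 < a := by linarith
  have hb0 : 0 < b := by linarith
  have hR : 0 < R := hΛ.trans hΛR
  have hz0 : ‖(0 : EuclideanSpace ℝ (Fin n))‖ ≤ R := by simp [hR.le]
  suffices hall : ∀ l, 0 < l → l < Λ → AboveIn a u R l ∧ AboveIn b v R l from
    ⟨rayD_nonneg_in ha0.le (hup 0 hz0).le hΛR.le hu2 (fun l hl h => (hall l hl h).1) hy,
      rayD_nonneg_in hb0.le (hvp 0 hz0).le hΛR.le hv2 (fun l hl h => (hall l hl h).2) hy⟩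
  obtain ⟨δu, hδu, hsu⟩ := small_in hR ha0 hu2 hup
  obtain ⟨δv, hδv, hsv⟩ := small_in hR hb0 hv2 hvp
  set T := {L : ℝ | L ≤ Λ ∧ ∀ l, 0 < l → l < L → AboveIn a u R l ∧ AboveIn b v R l} with hT
  have hbdd : BddAbove T := ⟨Λ, fun L hL => hL.1⟩
  have hmem : min Λ (min δu δv) ∈ T := ⟨min_le_left _ _, fun l hl hlt =>
    ⟨hsu l hl (hlt.trans_le ((min_le_right _ _).trans (min_le_left _ _))),
      hsv l hl (hlt.trans_le ((min_le_right _ _).trans (min_le_right _ _)))⟩⟩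
  set L := sSup T with hLd
  have hL : 0 < L := (lt_min hΛ (lt_min hδu hδv)).trans_le (le_csSup hbdd hmem)
  have hLΛ : L ≤ Λ := csSup_le ⟨_, hmem⟩ fun t ht => ht.1
  have hLT : ∀ l, 0 < l → l < L → AboveIn a u R l ∧ AboveIn b v R l := fun l hl hlL => by
    obtain ⟨L', hL', hlt⟩ := exists_lt_of_lt_csSup ⟨_, hmem⟩ hlL
    exact hL'.2 l hl hlt
  rcases hLΛ.eq_or_lt with e | hlt
  · exact e ▸ hLT
  exfalso
  have hPu : ∀ l, 0 < l → l < L → AboveIn a u R l := fun l hl h => (hLT l hl h).1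
  have hPv : ∀ l, 0 < l → l < L → AboveIn b v R l := fun l hl h => (hLT l hl h).2
  have hLR : L < R := hLΛ.trans_lt hΛR
  have hne : (sphere (0 : EuclideanSpace ℝ (Fin n)) R).Nonempty := by
    have : Nonempty (Fin n) := ⟨⟨0, by omega⟩⟩
    exact NormedSpace.sphere_nonempty.2 hR.le
  have margin : ∀ (c : ℝ) (w : EuclideanSpace ℝ (Fin n) → ℝ), 0 < c →
      (∀ x, ‖x‖ ≤ R → ContDiffAt ℝ 2 w x) → (∀ x, ‖x‖ ≤ R → 0 < w x) →
      (∀ x, ‖x‖ ≤ R → w x ≤ K) → (∀ x, ‖x‖ = R → (Λ / R) ^ (2 * c) * K < w x) →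
      ∃ m, 0 < m ∧ ∀ x, ‖x‖ = R → m ≤ w x - Sphere.refl c w L x := by
    intro c w hc hw2 hwp hwK hwb
    obtain ⟨z, hz, hzm⟩ := (isCompact_sphere (0 : EuclideanSpace ℝ (Fin n)) R).exists_isMinOn hne
      (f := w) (fun x hx => (hw2 x (mem_sphere_zero_iff_norm.1 hx).le).continuousAt.continuousWithinAt)
    rw [mem_sphere_zero_iff_norm] at hz
    refine ⟨w z - (Λ / R) ^ (2 * c) * K, by linarith [hwb z hz], fun x hx => ?_⟩
    obtain ⟨-, hyR⟩ := norm_invp_le hL (hx ▸ hLR.le) hx.le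
    have h1 : Sphere.refl c w L x ≤ (Λ / R) ^ (2 * c) * K := by
      rw [Sphere.refl, hx]
      exact mul_le_mul (rpow_le_rpow (by positivity)
        (div_le_div_of_nonneg_right hLΛ hR.le) (by linarith)) (hwK _ hyR) (hwp _ hyR).le
        (by positivity)
    have h2 : w z ≤ w x := hzm (mem_sphere_zero_iff_norm.2 hx)
    linarith
  obtain ⟨mu, hmu, hbu⟩ := margin a u ha0 hu2 hup (fun x hx => (hK x hx).1)
    fun x hx => (hbd x hx).1
  obtain ⟨mv, hmv, hbv⟩ := margin b v hb0 hv2 hvp (fun x hx => (hK x hx).2)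
    fun x hx => (hbd x hx).2
  obtain ⟨Uu, fu⟩ := strict_in hn hp hL hLR ha hu2 hup hvp hfp heu hPu (closed_in hL hv2 hPv)
    (fun x h h' => hf L x hL hLΛ h h') hmu hbu
  obtain ⟨Uv, fv⟩ := strict_in hn hq hL hLR hb hv2 hvp hup hgp hev hPv (closed_in hL hu2 hPu)
    (fun x h h' => hg L x hL hLΛ h h') hmv hbv
  obtain ⟨εu, hεu, hou⟩ := open_in hn hL hLR ha0.le hu2 (hup 0 hz0).le hPu Uu hmu fu
  obtain ⟨εv, hεv, hov⟩ := open_in hn hL hLR hb0.le hv2 (hvp 0 hz0).le hPv Uv hmv fv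
  have hnew : min Λ (L + min εu εv) ∈ T := ⟨min_le_left _ _, fun l hl hl' => by
    rcases lt_or_ge l L with h | h
    · exact hLT l hl h
    · have := hl'.trans_le (min_le_right Λ (L + min εu εv))
      exact ⟨hou l h (by linarith [min_le_left εu εv]), hov l h (by linarith [min_le_right εu εv])⟩⟩
  have := le_csSup hbdd hnew
  have : L < min Λ (L + min εu εv) := lt_min hlt (by linarith [lt_min hεu hεv])
  linarith

end

end Vale.Agent.P100.Local
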