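import Vale.Agent.P100.Local.Basic
import Vale.Agent.P100.Local.Spheres

/-!
There is no bounded normalised positive solution of the nearly autonomous system on a large ball
when both exponents `2 (p + 1) / (p q - 1)`, `2 (q + 1) / (p q - 1)` exceed `(n - 2) / 2`, or one
of them exceeds `n - 2`.
-/

open Set Filter Metric Laplacian InnerProductSpace Real
open scoped Topology RealInnerProductSpace

namespace Vale.Agent.P100.Local

noncomputable section

variable {n : ℕ}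

/-- A bounded solution of the normalised system on the ball of radius `k`. -/
structure Conf (p q A B K k σ : ℝ) (e : EuclideanSpace ℝ (Fin n))
    (U V : EuclideanSpace ℝ (Fin n) → ℝ) : Prop where
  unit : ‖e‖ = 1
  s0 : 0 ≤ σ
  sk : σ * k ≤ 1 / 2
  u2 : ∀ z, ‖z‖ ≤ k → ContDiffAt ℝ 2 U z
  v2 : ∀ z, ‖z‖ ≤ k → ContDiffAt ℝ 2 V z
  up : ∀ z, ‖z‖ ≤ k → 0 < U z
  vp : ∀ z, ‖z‖ ≤ k → 0 < V z
  uK : ∀ z, ‖z‖ ≤ k → U z ≤ K
  vK : ∀ z, ‖z‖ ≤ k → V z ≤ K
  eu : ∀ z, ‖z‖ ≤ k → -(Δ U z) = wt A σ e z * V z ^ p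
  ev : ∀ z, ‖z‖ ≤ k → -(Δ V z) = wt B σ e z * U z ^ q

variable {p q A B K k σ : ℝ} {e : EuclideanSpace ℝ (Fin n)} {U V : EuclideanSpace ℝ (Fin n) → ℝ}

theorem Conf.symm (H : Conf p q A B K k σ e U V) : Conf q p B A K k σ e V U :=
  ⟨H.unit, H.s0, H.sk, H.v2, H.u2, H.vp, H.up, H.vK, H.uK, H.ev, H.eu⟩

theorem Conf.small (H : Conf p q A B K k σ e U V) {z : EuclideanSpace ℝ (Fin n)} (hz : ‖z‖ ≤ k) :
    σ * ‖z‖ ≤ 1 / 2 :=
  (mul_le_mul_of_nonneg_left hz H.s0).trans H.sk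

theorem Conf.wtA (H : Conf p q A B K k σ e U V) {z : EuclideanSpace ℝ (Fin n)} (hz : ‖z‖ ≤ k) :
    ((2 : ℝ) ^ |A|)⁻¹ ≤ wt A σ e z ∧ wt A σ e z ≤ (2 : ℝ) ^ |A| := by
  obtain ⟨h1, h2⟩ := wt_norm H.unit H.s0 (H.small hz)
  exact rpow_bounds A h1 h2

theorem Conf.wtA_pos (H : Conf p q A B K k σ e U V) {z : EuclideanSpace ℝ (Fin n)}
    (hz : ‖z‖ ≤ k) : 0 < wt A σ e z :=
  lt_of_lt_of_le (by positivity) (H.wtA hz).1

theorem Conf.lapU (H : Conf p q A B K k σ e U V) {z : EuclideanSpace ℝ (Fin n)} (hz : ‖z‖ ≤ k) :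
    Δ U z < 0 := by
  linarith [H.eu z hz, mul_pos (H.wtA_pos hz) (rpow_pos_of_pos (H.vp z hz) p)]

theorem Conf.gradU (hp : 0 < p) (H : Conf p q A B K k σ e U V) {z : EuclideanSpace ℝ (Fin n)}
    (hz : ‖z‖ ≤ 1) (hk : 3 ≤ k) :
    ‖fderiv ℝ U z‖ ≤ (n : ℝ) * K + (2 : ℝ) ^ |A| * K ^ p / 2 := by
  have hK : 0 ≤ K := (H.up z (by linarith)).le.trans (H.uK z (by linarith))
  have hin : ∀ w, dist w z ≤ 1 → ‖w‖ ≤ k := fun w hw => by
    have := norm_le_norm_add_norm_sub' w z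
    rw [← dist_eq_norm] at this
    linarith
  have h := grad_bound (c := 0) (K := K) (F := (2 : ℝ) ^ |A| * K ^ p) one_pos (by positivity)
    (fun w hw => H.u2 w (hin w hw))
    (fun w hw => by rw [sub_zero, abs_of_pos (H.up w (hin w hw))]; exact H.uK w (hin w hw))
    (fun w hw => by
      rw [abs_of_neg (H.lapU (hin w hw)), H.eu w (hin w hw)]
      exact mul_le_mul (H.wtA (hin w hw)).2
        (rpow_le_rpow (H.vp w (hin w hw)).le (H.vK w (hin w hw)) hp.le)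
        (rpow_nonneg (H.vp w (hin w hw)).le p) (by positivity))
  simpa using h

/-- A lower bound for `U` at the origin gives one for `V`. -/
theorem other_lower (hn : 3 ≤ n) (p q A B K η : ℝ) (hp : 0 < p) (hq : 0 < q) (hK : 0 < K)
    (hη : 0 < η) :
    ∃ η', 0 < η' ∧ ∀ k σ (e : EuclideanSpace ℝ (Fin n)) U V, 3 ≤ k → Conf p q A B K k σ e U V →
      η ≤ U 0 → η' ≤ V 0 := by
  set G := (n : ℝ) * K + (2 : ℝ) ^ |A| * K ^ p / 2 with hG
  have hn0 : 0 < (n : ℝ) := by exact_mod_cast (show 0 < n by omega)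
  have hG0 : 0 < G := by positivity
  set δ := min 1 (η / (2 * G)) with hδ
  have hδ0 : 0 < δ := lt_min one_pos (by positivity)
  refine ⟨((2 : ℝ) ^ |B|)⁻¹ * (η / 2) ^ q / (4 * n) * δ ^ 2, by positivity,
    fun k σ e U V hk H h0 => ?_⟩
  refine center_ge (by omega) hδ0 (by positivity)
    (fun z hz => H.v2 z (by linarith [min_le_left 1 (η / (2 * G))]))
    (fun z hz => (H.vp z (by linarith [min_le_left 1 (η / (2 * G))])).le) fun z hz => ?_
  have hzk : ‖z‖ ≤ k := by linarith [min_le_left 1 (η / (2 * G))]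
  have h1 := lip_lower (ρ := 1) (G := G) (fun w hw => H.u2 w (by linarith))
    (fun w hw => H.gradU hp hw hk) (z := z) (by linarith [min_le_left 1 (η / (2 * G))])
  have h2 : G * ‖z‖ ≤ η / 2 := by
    have := mul_le_mul_of_nonneg_left (hz.trans (min_le_right _ _)) hG0.le
    rwa [show G * (η / (2 * G)) = η / 2 by field_simp] at this
  have h3 : (η / 2) ^ q ≤ U z ^ q := rpow_le_rpow (by positivity) (by linarith) hq.le
  have h4 := mul_le_mul (H.symm.wtA hzk).1 h3 (by positivity) (H.symm.wtA_pos hzk).le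
  linarith [H.ev z hzk]

/-- Uniform lower bounds with the decay of the fundamental solution. -/
theorem seed (hn : 3 ≤ n) (p q A B K η : ℝ) (hp : 0 < p) (hq : 0 < q) (hK : 0 < K) (hη : 0 < η) :
    ∃ η' c, 0 < η' ∧ 0 < c ∧ ∀ k σ (e : EuclideanSpace ℝ (Fin n)) U V, 3 ≤ k →
      Conf p q A B K k σ e U V → η ≤ U 0 ∨ η ≤ V 0 → η' ≤ U 0 ∧ η' ≤ V 0 ∧
      ∀ z, 1 ≤ ‖z‖ → 2 * ‖z‖ ≤ k →
        c * ‖z‖ ^ (-((n : ℝ) - 2)) ≤ U z ∧ c * ‖z‖ ^ (-((n : ℝ) - 2)) ≤ V z := by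
  obtain ⟨η₁, hη₁, h1⟩ := other_lower hn p q A B K η hp hq hK hη
  obtain ⟨η₂, hη₂, h2⟩ := other_lower hn q p B A K η hq hp hK hη
  set η' := min η (min η₁ η₂) with hη'
  have hη'0 : 0 < η' := lt_min hη (lt_min hη₁ hη₂)
  have hn0 : 0 < (n : ℝ) := by exact_mod_cast (show 0 < n by omega)
  set G := (n : ℝ) * K + (2 : ℝ) ^ |A| * K ^ p / 2 + (2 : ℝ) ^ |B| * K ^ q / 2 with hG
  have hG0 : 0 < G := by positivity
  set δ := min 1 (η' / (2 * G)) with hδ
  have hδ0 : 0 < δ := lt_min one_pos (by positivity)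
  refine ⟨η', η' / 2 * δ ^ ((n : ℝ) - 2) / 2, hη'0, by positivity,
    fun k σ e U V hk H hor => ?_⟩
  have hU0 : η' ≤ U 0 := hor.elim (fun h => (min_le_left _ _).trans h)
    fun h => ((min_le_right _ _).trans (min_le_right _ _)).trans (h2 k σ e V U hk H.symm h)
  have hV0 : η' ≤ V 0 := hor.elim
    (fun h => ((min_le_right _ _).trans (min_le_left _ _)).trans (h1 k σ e U V hk H h))
    fun h => (min_le_left _ _).trans h
  refine ⟨hU0, hV0, fun z hz hz' => ?_⟩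
  have hzδ : δ ≤ ‖z‖ := (min_le_left _ _).trans hz
  have hδk : δ ≤ k := by linarith
  have hnear : ∀ (W : EuclideanSpace ℝ (Fin n) → ℝ) (F : ℝ), F ≤ G → η' ≤ W 0 →
      (∀ w, ‖w‖ ≤ k → ContDiffAt ℝ 2 W w) → (∀ w, ‖w‖ ≤ 1 → ‖fderiv ℝ W w‖ ≤ F) →
      ∀ w : EuclideanSpace ℝ (Fin n), ‖w‖ = δ → η' / 2 ≤ W w := by
    intro W F hF h0 hW hD w hw
    have h := lip_lower (ρ := 1) (G := G) (fun x hx => hW x (by linarith))
      (fun x hx => (hD x hx).trans hF) (z := w) (hw.trans_le (min_le_left _ _))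
    have h2 : G * ‖w‖ ≤ η' / 2 := by
      have := mul_le_mul_of_nonneg_left (hw.trans_le (min_le_right 1 (η' / (2 * G)))) hG0.le
      rwa [show G * (η' / (2 * G)) = η' / 2 by field_simp] at this
    linarith
  refine ⟨fund_lower hn hδ0 hδk (by positivity) H.u2 (fun w hw => (H.up w hw).le)
    (fun w hw => H.lapU hw)
    (hnear U _ (by rw [hG]; linarith [show (0 : ℝ) ≤ 2 ^ |B| * K ^ q / 2 by positivity]) hU0 H.u2
      fun w hw => H.gradU hp hw hk) hzδ hz', ?_⟩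
  exact fund_lower hn hδ0 hδk (by positivity) H.v2 (fun w hw => (H.vp w hw).le)
    (fun w hw => H.symm.lapU hw)
    (hnear V _ (by rw [hG]; linarith [show (0 : ℝ) ≤ 2 ^ |A| * K ^ p / 2 by positivity]) hV0 H.v2
      fun w hw => H.symm.gradU hq hw hk) hzδ hz'

/-- One scaling exponent above `n - 2`: barriers make `U` grow. -/
theorem no_conf_large (hn : 3 ≤ n) (p q A B K η : ℝ) (hp : 0 < p) (hq : 0 < q)
    (hpq : 1 < p * q) (hlarge : ((n : ℝ) - 2) * (p * q - 1) < 2 * (p + 1)) (hK : 0 < K)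
    (hη : 0 < η) :
    ∃ k₀, 3 ≤ k₀ ∧ ∀ σ (e : EuclideanSpace ℝ (Fin n)) U V,
      Conf p q A B K k₀ σ e U V → η ≤ U 0 ∨ η ≤ V 0 → False := by
  set N : ℝ := (n : ℝ) - 2 with hN
  obtain ⟨η', c₀, -, hc₀, hseed⟩ := seed hn p q A B K η hp hq hK hη
  set f : ℝ → ℝ := fun t => p * (q * t - 2) - 2 with hf
  have iter : ∀ j : ℕ, ∃ c M, 0 < c ∧ 1 ≤ M ∧ ∀ k σ (e : EuclideanSpace ℝ (Fin n)) U V, 3 ≤ k →
      Conf p q A B K k σ e U V → η ≤ U 0 ∨ η ≤ V 0 →
      ∀ z, M ≤ ‖z‖ → 2 * M * ‖z‖ ≤ k → c * ‖z‖ ^ (-(f^[j] N)) ≤ U z := by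
    intro j
    induction j with
    | zero =>
      exact ⟨c₀, 1, hc₀, le_rfl, fun k σ e U V hk H hor z hz hz' =>
        ((hseed k σ e U V hk H hor).2.2 z hz (by linarith)).1⟩
    | succ j ih =>
      obtain ⟨c, M, hc, hM, hih⟩ := ih
      obtain ⟨c₁, hc₁, h₁⟩ := improve_in (n := n) (p := q) (b := f^[j] N)
        (κ := ((2 : ℝ) ^ |B|)⁻¹) hq hc (by positivity)
      obtain ⟨c₂, hc₂, h₂⟩ := improve_in (n := n) (p := p) (b := q * f^[j] N - 2)
        (κ := ((2 : ℝ) ^ |A|)⁻¹) hp hc₁ (by positivity)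
      refine ⟨c₂, 4 * M, hc₂, by linarith, fun k σ e U V hk H hor z hz hz' => ?_⟩
      have hM0 : 0 < M := by linarith
      have hball : ∀ w : EuclideanSpace ℝ (Fin n), M ≤ ‖w‖ → ‖w‖ ≤ k / (2 * M) → ‖w‖ ≤ k :=
        fun w _ h => h.trans (div_le_self (by linarith) (by linarith))
      have hV := h₁ V U M (k / (2 * M)) hM0 fun w hw hw' => by
        have hwk := hball w hw hw'
        refine ⟨H.v2 w hwk, (H.vp w hwk).le, ?_, hih k σ e U V hk H hor w hw ?_⟩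
        · rw [H.ev w hwk]
          exact mul_le_mul_of_nonneg_right (H.symm.wtA hwk).1 (rpow_nonneg (H.up w hwk).le q)
        · rw [le_div_iff₀ (by positivity)] at hw'; linarith
      have hz2 : ‖z‖ * (4 * (2 * M)) ≤ k := by linarith
      have hU := h₂ U V (2 * M) (k / (4 * M)) (by positivity) fun w hw hw' => by
        have h4 : k / (4 * M) ≤ k / (2 * M) :=
          div_le_div_of_nonneg_left (by linarith) (by positivity) (by linarith)
        have hwk := hball w (by linarith) (hw'.trans h4)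
        refine ⟨H.u2 w hwk, (H.up w hwk).le, ?_, hV w hw ?_⟩
        · rw [H.eu w hwk]
          exact mul_le_mul_of_nonneg_right (H.wtA hwk).1 (rpow_nonneg (H.vp w hwk).le p)
        · rw [le_div_iff₀ (by positivity)] at hw' ⊢; linarith
      have := hU z (by linarith) (by rw [le_div_iff₀ (by positivity)]; linarith)
      rwa [Function.iterate_succ_apply']
  have hfN : p * (q * N - 2 - 0) - 2 - 0 < N := by linarith
  obtain ⟨j, hj⟩ := Sphere.exists_iterate_neg (a := N) (A := 0) (B := 0) hp hq (by norm_num)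
    (by norm_num) hfN
  simp only [sub_zero] at hj
  obtain ⟨c, M, hc, hM, hb⟩ := iter j
  obtain ⟨T, hT⟩ := eventually_atTop.1
    (((tendsto_rpow_atTop (neg_pos.2 hj)).const_mul_atTop hc).eventually_gt_atTop K)
  set s := max M (max T 2) with hs
  have hs2 : 2 ≤ s := (le_max_right T 2).trans (le_max_right _ _)
  refine ⟨2 * M * s, by nlinarith, fun σ e U V H hor => ?_⟩
  obtain ⟨z, hz⟩ : ∃ z : EuclideanSpace ℝ (Fin n), ‖z‖ = s :=
    ⟨s • EuclideanSpace.basisFun (Fin n) ℝ ⟨0, by omega⟩, by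
      rw [norm_smul, (EuclideanSpace.basisFun (Fin n) ℝ).orthonormal.1, mul_one, Real.norm_eq_abs,
        abs_of_pos (by linarith)]⟩
  have h1 := hb _ σ e U V (by nlinarith) H hor z (hz ▸ le_max_left _ _) (by rw [hz])
  have h2 := hT s ((le_max_left T 2).trans (le_max_right _ _))
  have h3 := H.uK z (by rw [hz]; nlinarith)
  rw [hz] at h1
  linarith

theorem exp_lt_tilt {A σ l R ε : ℝ} (hσ : 0 ≤ σ) (hl : 0 < l) (hε : |A| * σ * R < ε / 2)
    {x : EuclideanSpace ℝ (Fin n)} (hx : l < ‖x‖) (hxR : ‖x‖ ≤ R) :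
    (l / ‖x‖) ^ (2 * ε) * Real.exp (2 * |A| * σ * ‖Sphere.invp l x - x‖) < 1 := by
  have hxp : 0 < ‖x‖ := hl.trans hx
  set t := ‖x‖ / l with ht
  have ht1 : 1 < t := (one_lt_div hl).2 hx
  have hlog : 0 < Real.log t := Real.log_pos ht1
  have hd : ‖Sphere.invp l x - x‖ = ‖x‖ - l ^ 2 / ‖x‖ := by
    have h1 : Sphere.invp l x - x = (l ^ 2 / ‖x‖ ^ 2 - 1) • x := by
      rw [Sphere.invp, sub_smul, one_smul]
    have h2 : l ^ 2 / ‖x‖ ^ 2 ≤ 1 :=
      (div_le_one (by positivity)).2 (pow_le_pow_left₀ hl.le hx.le 2)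
    rw [h1, norm_smul, Real.norm_eq_abs, abs_of_nonpos (by linarith)]
    field_simp
    ring
  have hd2 : ‖x‖ - l ^ 2 / ‖x‖ ≤ 2 * R * Real.log t := by
    have h1 := Real.one_sub_inv_le_log_of_pos (show 0 < t by positivity)
    rw [ht, inv_div] at h1
    have e : ‖x‖ - l ^ 2 / ‖x‖ = (‖x‖ + l) * (1 - l / ‖x‖) := by field_simp; ring
    rw [e]
    have h2 : (0 : ℝ) ≤ 1 - l / ‖x‖ := by
      have := (div_le_one hxp).2 hx.le
      linarith
    calc (‖x‖ + l) * (1 - l / ‖x‖) ≤ 2 * R * (1 - l / ‖x‖) :=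
          mul_le_mul_of_nonneg_right (by linarith) h2
      _ ≤ _ := mul_le_mul_of_nonneg_left h1 (by linarith)
  rw [show (l / ‖x‖) = t⁻¹ by rw [ht, inv_div], inv_rpow (by positivity),
    rpow_def_of_pos (by positivity), ← Real.exp_neg, ← Real.exp_add, Real.exp_lt_one_iff, hd]
  have h3 := mul_le_mul_of_nonneg_left hd2 (show 0 ≤ 2 * |A| * σ by positivity)
  nlinarith [mul_lt_mul_of_pos_right hε hlog]

/-- Monotonicity along the rays from every centre near the origin. -/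
theorem ray_conf (hn : 3 ≤ n) {Λ R a b c₀ ε : ℝ} (hp : 0 < p) (hq : 0 < q)
    (H : Conf p q A B K (R ^ 2) σ e U V) (haN : (n : ℝ) - 2 < 2 * a) (hbN : (n : ℝ) - 2 < 2 * b)
    (hεa : 2 + a - p * b = ε) (hεb : 2 + b - q * a = ε) (hΛ0 : 0 < Λ) (hR1 : Λ + 2 ≤ R)
    (hR2k : 2 * (R + Λ) ≤ R ^ 2) (hAε : ∀ X : ℝ, |X| ≤ |A| + |B| → |X| * σ * R < ε / 2)
    (hc₀ : 0 < c₀)
    (hR4 : K * Λ ^ (2 * a) <
      c₀ * (2 : ℝ) ^ (-((n : ℝ) - 2)) * R ^ (2 * a - ((n : ℝ) - 2)))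
    (hR5 : K * Λ ^ (2 * b) <
      c₀ * (2 : ℝ) ^ (-((n : ℝ) - 2)) * R ^ (2 * b - ((n : ℝ) - 2)))
    (hlow : ∀ z, 1 ≤ ‖z‖ → 2 * ‖z‖ ≤ R ^ 2 →
      c₀ * ‖z‖ ^ (-((n : ℝ) - 2)) ≤ U z ∧ c₀ * ‖z‖ ^ (-((n : ℝ) - 2)) ≤ V z)
    {c x : EuclideanSpace ℝ (Fin n)} (hc : ‖c‖ ≤ Λ) (hx : ‖x‖ < Λ) :
    0 ≤ a * U (c + x) + fderiv ℝ U (c + x) x := by
  have hn3 : (3 : ℝ) ≤ n := by exact_mod_cast hn
  set N : ℝ := (n : ℝ) - 2 with hN
  have hR0 : 0 < R := by linarith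
  have hin : ∀ w : EuclideanSpace ℝ (Fin n), ‖w‖ ≤ R → ‖c + w‖ ≤ R ^ 2 := fun w hw => by
    linarith [norm_add_le c w]
  have htr : ∀ (W : EuclideanSpace ℝ (Fin n) → ℝ) (w : EuclideanSpace ℝ (Fin n)),
      (∀ z, ‖z‖ ≤ R ^ 2 → ContDiffAt ℝ 2 W z) → ‖w‖ ≤ R →
      ContDiffAt ℝ 2 (fun w => W (c + w)) w ∧ Δ (fun w => W (c + w)) w = Δ W (c + w) := by
    intro W w hW hw
    have h : ContDiffAt ℝ 2 W (c + (1 : ℝ) • w) := by rw [one_smul]; exact hW _ (hin w hw)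
    have e1 := contDiffAt_affine (y := c) (z := w) (s := 1) (m := 1) h
    have e2 := laplacian_affine (y := c) (z := w) (s := 1) (m := 1) h
    simp only [one_mul, one_smul, one_pow, mul_one] at e1 e2
    exact ⟨e1, e2⟩
  have hratio : ∀ (X : ℝ), |X| ≤ |A| + |B| → ∀ l w, 0 < l → l ≤ Λ → l < ‖w‖ → ‖w‖ ≤ R →
      (l / ‖w‖) ^ (2 * ε) * wt X σ e (c + Sphere.invp l w) < wt X σ e (c + w) := by
    intro X hX l w hl _ hlw hwR
    have hy := (norm_invp_le hl hlw.le hwR).2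
    have h1 := wt_ratio (A := X) H.unit H.s0 (H.small (hin w hwR)) (H.small (hin _ hy))
    rw [show c + Sphere.invp l w - (c + w) = Sphere.invp l w - w by abel] at h1
    have h2 := exp_lt_tilt H.s0 hl (hAε X hX) hlw hwR
    have hwp : 0 < wt X σ e (c + w) := by
      obtain ⟨z1, z2⟩ := wt_norm H.unit H.s0 (H.small (hin w hwR))
      exact rpow_pos_of_pos (by linarith) X
    calc (l / ‖w‖) ^ (2 * ε) * wt X σ e (c + Sphere.invp l w)
        ≤ (l / ‖w‖) ^ (2 * ε) * (Real.exp (2 * |X| * σ * ‖Sphere.invp l w - w‖) *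
            wt X σ e (c + w)) := mul_le_mul_of_nonneg_left h1 (by positivity)
      _ = _ * wt X σ e (c + w) := (mul_assoc _ _ _).symm
      _ < 1 * wt X σ e (c + w) := mul_lt_mul_of_pos_right h2 hwp
      _ = _ := one_mul _
  have hbd : ∀ (d : ℝ) (W : EuclideanSpace ℝ (Fin n) → ℝ),
      K * Λ ^ (2 * d) < c₀ * (2 : ℝ) ^ (-N) * R ^ (2 * d - N) →
      (∀ z, 1 ≤ ‖z‖ → 2 * ‖z‖ ≤ R ^ 2 → c₀ * ‖z‖ ^ (-N) ≤ W z) →
      ∀ w, ‖w‖ = R → (Λ / R) ^ (2 * d) * K < W (c + w) := by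
    intro d W hd' hW w hw
    have h1 : 1 ≤ ‖c + w‖ := by
      have := norm_sub_norm_le w (-c)
      rw [norm_neg, sub_neg_eq_add, add_comm] at this
      linarith
    have h2 : ‖c + w‖ ≤ R + Λ := by linarith [norm_add_le c w]
    refine lt_of_lt_of_le ?_ (hW _ h1 (by linarith))
    have h3 : (2 * R) ^ (-N) ≤ ‖c + w‖ ^ (-N) :=
      rpow_le_rpow_of_nonpos (by linarith) (by linarith) (by linarith)
    refine lt_of_lt_of_le ?_ (mul_le_mul_of_nonneg_left h3 hc₀.le)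
    rw [div_rpow hΛ0.le hR0.le, div_mul_eq_mul_div, div_lt_iff₀ (rpow_pos_of_pos hR0 _),
      mul_rpow two_pos.le hR0.le]
    calc Λ ^ (2 * d) * K = K * Λ ^ (2 * d) := mul_comm _ _
      _ < c₀ * (2 : ℝ) ^ (-N) * R ^ (2 * d - N) := hd'
      _ = _ := by rw [sub_eq_neg_add, rpow_add hR0]; ring
  have h := ball_mono hn hp hq hΛ0 (show Λ < R by linarith) haN.le hbN.le
    (u := fun w => U (c + w)) (v := fun w => V (c + w)) (f := fun w => wt A σ e (c + w))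
    (g := fun w => wt B σ e (c + w)) (K := K)
    (fun w hw => (htr U w H.u2 hw).1) (fun w hw => (htr V w H.v2 hw).1)
    (fun w hw => H.up _ (hin w hw)) (fun w hw => H.vp _ (hin w hw))
    (fun w hw => H.wtA_pos (hin w hw)) (fun w hw => H.symm.wtA_pos (hin w hw))
    (fun w hw => by rw [(htr U w H.u2 hw).2]; exact H.eu _ (hin w hw))
    (fun w hw => by rw [(htr V w H.v2 hw).2]; exact H.ev _ (hin w hw))
    (fun w hw => ⟨H.uK _ (hin w hw), H.vK _ (hin w hw)⟩)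
    (by rw [hεa]; exact hratio A (by linarith [abs_nonneg B]))
    (by rw [hεb]; exact hratio B (by linarith [abs_nonneg A]))
    (fun w hw => ⟨hbd a U hR4 (fun z h h' => (hlow z h h').1) w hw,
      hbd b V hR5 (fun z h h' => (hlow z h h').2) w hw⟩) hx
  have h1 := h.1
  unfold Sphere.rayD at h1
  rw [fderiv_comp_add_left] at h1
  exact h1

/-- Monotonicity about every centre makes `U` flat and therefore `V` large at the origin. -/
theorem flat_lower (hn : 3 ≤ n) {Λ R a s η' c₁ : ℝ} (hq : 0 < q) (hK : 0 < K) (hη' : 0 < η')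
    (H : Conf p q A B K (R ^ 2) σ e U V) (hU0 : η' ≤ U 0) (ha0 : 0 < a) (hΛ0 : 0 < Λ)
    (hΛk : Λ ≤ R ^ 2) (hs : s = min (1 / 2 : ℝ) (η' / (4 * a * K)))
    (hc₁ : c₁ = ((2 : ℝ) ^ |B|)⁻¹ * (η' / 2) ^ q)
    (hray : ∀ c : EuclideanSpace ℝ (Fin n), ‖c‖ ≤ Λ → ∀ x, ‖x‖ < Λ →
      0 ≤ a * U (c + x) + fderiv ℝ U (c + x) x) :
    c₁ / (4 * n) * (s * Λ) ^ 2 ≤ V 0 := by
  have hs0 : 0 < s := by rw [hs]; exact lt_min (by norm_num) (by positivity)
  have hc₁0 : 0 < c₁ := by rw [hc₁]; positivity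
  subst hs
  set s := min (1 / 2 : ℝ) (η' / (4 * a * K)) with hs
  -- the derivative is small
  have hgrad : ∀ y : EuclideanSpace ℝ (Fin n), ‖y‖ ≤ Λ / 2 →
      ‖fderiv ℝ U y‖ ≤ 2 * a * K / Λ := by
    intro y hy
    have hyk : ‖y‖ ≤ R ^ 2 := by linarith
    refine ContinuousLinearMap.opNorm_le_of_unit_norm (by positivity) fun θ hθ => ?_
    have key : ∀ ξ : EuclideanSpace ℝ (Fin n), ‖ξ‖ = 1 →
        -(2 * a * K / Λ) ≤ fderiv ℝ U y ξ := by
      intro ξ hξ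
      have hx : ‖(Λ / 2) • ξ‖ = Λ / 2 := by
        rw [norm_smul, hξ, mul_one, Real.norm_eq_abs, abs_of_pos (by positivity)]
      have h := hray (y - (Λ / 2) • ξ) ((norm_sub_le _ _).trans (by linarith)) ((Λ / 2) • ξ)
        (by rw [hx]; linarith)
      rw [sub_add_cancel, map_smul, smul_eq_mul] at h
      have h2 := mul_le_mul_of_nonneg_left (H.uK y hyk) ha0.le
      rw [neg_le, le_div_iff₀ hΛ0]
      linarith
    rw [Real.norm_eq_abs, abs_le]
    have h1 := key (-θ) (by rwa [norm_neg])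
    rw [map_neg] at h1
    exact ⟨key θ hθ, by linarith⟩
  have hρ0 : 0 < s * Λ := by positivity
  have hsΛ : s * Λ ≤ Λ / 2 := by
    have := mul_le_mul_of_nonneg_right (min_le_left (1 / 2 : ℝ) (η' / (4 * a * K))) hΛ0.le
    linarith
  exact center_ge (U := V) (by omega) hρ0 hc₁0
    (fun z hz => H.v2 z (by linarith)) (fun z hz => (H.vp z (by linarith)).le) fun z hz => by
      have hzk : ‖z‖ ≤ R ^ 2 := by linarith
      have h1 := lip_lower (ρ := Λ / 2) (fun w hw => H.u2 w (by linarith)) hgrad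
        (z := z) (hz.trans hsΛ)
      have h2 : 2 * a * K / Λ * ‖z‖ ≤ η' / 2 := by
        rw [div_mul_eq_mul_div, div_le_iff₀ hΛ0]
        have h3 := min_le_right (1 / 2 : ℝ) (η' / (4 * a * K))
        rw [le_div_iff₀ (by positivity)] at h3
        have h4 := mul_le_mul_of_nonneg_left hz (show 0 ≤ 2 * a * K by positivity)
        have h5 := mul_le_mul_of_nonneg_right h3 hΛ0.le
        linarith
      have h3 : (η' / 2) ^ q ≤ U z ^ q := rpow_le_rpow (by positivity) (by linarith) hq.le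
      have h4 := mul_le_mul (H.symm.wtA hzk).1 h3 (by positivity) (H.symm.wtA_pos hzk).le
      rw [hc₁]
      linarith [H.ev z hzk]

/-- Both scaling exponents above `(n - 2) / 2`: moving spheres with every centre flatten the
solution. -/
theorem no_conf_half (hn : 3 ≤ n) (p q A B K η : ℝ) (hp : 0 < p) (hq : 0 < q)
    (hpq : 1 < p * q) (hα : ((n : ℝ) - 2) * (p * q - 1) < 4 * (p + 1))
    (hβ : ((n : ℝ) - 2) * (p * q - 1) < 4 * (q + 1)) (hK : 0 < K) (hη : 0 < η) :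
    ∃ k₀, 3 ≤ k₀ ∧ ∀ σ (e : EuclideanSpace ℝ (Fin n)) U V,
      Conf p q A B K k₀ σ e U V → η ≤ U 0 ∨ η ≤ V 0 → False := by
  have hn3 : (3 : ℝ) ≤ n := by exact_mod_cast hn
  set N : ℝ := (n : ℝ) - 2 with hN
  have hd : 0 < p * q - 1 := by linarith
  obtain ⟨t, ht1, hta, htb⟩ : ∃ t, t < 1 ∧ N * (p * q - 1) < t * (4 * (p + 1)) ∧
      N * (p * q - 1) < t * (4 * (q + 1)) := by
    set M := max (N * (p * q - 1) / (4 * (p + 1))) (N * (p * q - 1) / (4 * (q + 1))) with hM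
    have hM1 : M < 1 :=
      max_lt ((div_lt_one (by positivity)).2 hα) ((div_lt_one (by positivity)).2 hβ)
    refine ⟨(1 + M) / 2, by linarith, ?_, ?_⟩
    · refine (div_lt_iff₀ (by positivity)).1 ?_
      linarith [le_max_left (N * (p * q - 1) / (4 * (p + 1))) (N * (p * q - 1) / (4 * (q + 1)))]
    · refine (div_lt_iff₀ (by positivity)).1 ?_
      linarith [le_max_right (N * (p * q - 1) / (4 * (p + 1))) (N * (p * q - 1) / (4 * (q + 1)))]
  set a := t * (2 * (p + 1) / (p * q - 1)) with ha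
  set b := t * (2 * (q + 1) / (p * q - 1)) with hb
  have haN : N < 2 * a := by
    rw [ha, show 2 * (t * (2 * (p + 1) / (p * q - 1))) = t * (4 * (p + 1)) / (p * q - 1) by ring,
      lt_div_iff₀ hd]
    exact hta
  have hbN : N < 2 * b := by
    rw [hb, show 2 * (t * (2 * (q + 1) / (p * q - 1))) = t * (4 * (q + 1)) / (p * q - 1) by ring,
      lt_div_iff₀ hd]
    exact htb
  set ε := 2 * (1 - t) with hε
  have hεa : 2 + a - p * b = ε := by rw [ha, hb, hε]; field_simp; ring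
  have hεb : 2 + b - q * a = ε := by
    rw [ha, hb, hε, mul_div_assoc', mul_div_assoc', mul_div_assoc' q, add_div' _ _ _ hd.ne',
      div_sub_div_same, div_eq_iff hd.ne']
    ring
  have hε0 : 0 < ε := by linarith
  have ha0 : 0 < a := by linarith
  have hb0 : 0 < b := by linarith
  obtain ⟨η', c₀, hη', hc₀, hseed⟩ := seed hn p q A B K η hp hq hK hη
  set s := min (1 / 2 : ℝ) (η' / (4 * a * K)) with hs
  have hs0 : 0 < s := lt_min (by norm_num) (by positivity)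
  set c₁ := ((2 : ℝ) ^ |B|)⁻¹ * (η' / 2) ^ q with hc₁
  have hn0 : 0 < (n : ℝ) := by linarith
  have hc₁0 : 0 < c₁ := by positivity
  set Λ := max 1 ((K + 1) * (4 * n) / (c₁ * s ^ 2)) with hΛ
  have hΛ1 : 1 ≤ Λ := le_max_left _ _
  have hΛ0 : 0 < Λ := by linarith
  have hT : ∀ c : ℝ, N < 2 * c → ∀ᶠ R : ℝ in atTop,
      K * Λ ^ (2 * c) < c₀ * (2 : ℝ) ^ (-N) * R ^ (2 * c - N) := fun c hc =>
    ((tendsto_rpow_atTop (show (0 : ℝ) < 2 * c - N by linarith)).const_mul_atTop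
      (show (0 : ℝ) < c₀ * (2 : ℝ) ^ (-N) by positivity)).eventually_gt_atTop _
  obtain ⟨R, hR1, hR2, hR3, hR4, hR5⟩ := ((eventually_ge_atTop (Λ + 2)).and
    ((eventually_ge_atTop (4 : ℝ)).and ((eventually_gt_atTop ((|A| + |B|) / ε)).and
      ((hT a haN).and (hT b hbN))))).exists
  have hR0 : 0 < R := by linarith
  have hR2k : 2 * (R + Λ) ≤ R ^ 2 := by
    have := mul_le_mul_of_nonneg_right hR2 hR0.le
    rw [sq]; linarith
  refine ⟨R ^ 2, by linarith, fun σ e U V H hor => ?_⟩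
  obtain ⟨hU0, -, hlow⟩ := hseed _ σ e U V (by linarith) H hor
  have hσR : σ * R ≤ 1 / (2 * R) := by
    rw [le_div_iff₀ (by positivity)]
    linarith [H.sk]
  have hAε : ∀ X : ℝ, |X| ≤ |A| + |B| → |X| * σ * R < ε / 2 := by
    intro X hX
    rw [div_lt_iff₀ hε0] at hR3
    calc |X| * σ * R = |X| * (σ * R) := by ring
      _ ≤ (|A| + |B|) * (1 / (2 * R)) :=
          mul_le_mul hX hσR (mul_nonneg H.s0 hR0.le) (by positivity)
      _ < ε / 2 := by
          rw [← mul_div_assoc, mul_one, div_lt_iff₀ (by positivity)]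
          linarith
  have hray : ∀ c : EuclideanSpace ℝ (Fin n), ‖c‖ ≤ Λ → ∀ x, ‖x‖ < Λ →
      0 ≤ a * U (c + x) + fderiv ℝ U (c + x) x := fun c hc x hx =>
    ray_conf hn hp hq H haN hbN hεa hεb hΛ0 hR1 hR2k hAε hc₀ hR4 hR5
      (fun z h h' => (hlow z h h')) hc hx
  have hlarge := flat_lower hn hq hK hη' H hU0 ha0 hΛ0 (by linarith) hs hc₁ hray
  have hV := H.vK 0 (by rw [norm_zero]; positivity)
  have h6 : (K + 1) * (4 * n) / (c₁ * s ^ 2) ≤ Λ := le_max_right _ _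
  rw [div_le_iff₀ (by positivity)] at h6
  have h7 : Λ * (c₁ * s ^ 2) ≤ Λ ^ 2 * (c₁ * s ^ 2) :=
    mul_le_mul_of_nonneg_right (le_self_pow₀ hΛ1 two_ne_zero) (by positivity)
  have h8 : K + 1 ≤ c₁ / (4 * n) * (s * Λ) ^ 2 := by
    rw [div_mul_eq_mul_div, le_div_iff₀ (by positivity)]
    linarith
  linarith

/-- The local Liouville property in the whole range. -/
theorem no_conf (hn : 3 ≤ n) (p q A B K η : ℝ) (hp : 0 < p) (hq : 0 < q) (hpq : 1 < p * q)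
    (hcase : (((n : ℝ) - 2) * (p * q - 1) < 4 * (p + 1) ∧
        ((n : ℝ) - 2) * (p * q - 1) < 4 * (q + 1)) ∨
      ((n : ℝ) - 2) * (p * q - 1) < 2 * (max p q + 1)) (hK : 0 < K) (hη : 0 < η) :
    ∃ k₀, 3 ≤ k₀ ∧ ∀ σ (e : EuclideanSpace ℝ (Fin n)) U V,
      Conf p q A B K k₀ σ e U V → η ≤ U 0 ∨ η ≤ V 0 → False := by
  rcases hcase with ⟨h1, h2⟩ | h
  · exact no_conf_half hn p q A B K η hp hq hpq h1 h2 hK hη
  rcases le_total q p with hle | hle
  · rw [max_eq_left hle] at h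
    exact no_conf_large hn p q A B K η hp hq hpq h hK hη
  · rw [max_eq_right hle] at h
    obtain ⟨k, hk, h'⟩ := no_conf_large (n := n) hn q p B A K η hq hp (by rwa [mul_comm])
      (by rwa [mul_comm q p]) hK hη
    exact ⟨k, hk, fun σ e U V H hor => h' σ e V U H.symm hor.symm⟩

end

end Vale.Agent.P100.Local
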