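import Vale.Agent.P100.Local.Apriori
import Vale.Agent.P100.Linear.Calculus

/-!
The Pohozaev identity with a cutoff away from the origin and from infinity. Together with the
pointwise a priori bounds it excludes every positive entire solution for subcritical parameters.
-/

open Set Filter Metric Laplacian InnerProductSpace Real MeasureTheory
open scoped Topology RealInnerProductSpace

namespace Vale.Agent.P100.Local

open Vale.Agent.P100.Linear

noncomputable section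

variable {n : ℕ}

/-- The flux in the direction of a coordinate. -/
def flux (p q A B c1 c2 : ℝ) (u v : EuclideanSpace ℝ (Fin n) → ℝ) (i : Fin n)
    (y : EuclideanSpace ℝ (Fin n)) : ℝ :=
  let e := EuclideanSpace.basisFun (Fin n) ℝ i
  fderiv ℝ u y y * fderiv ℝ v y e + fderiv ℝ v y y * fderiv ℝ u y e -
      ⟪y, e⟫ * (∑ j, fderiv ℝ u y (EuclideanSpace.basisFun (Fin n) ℝ j) *
        fderiv ℝ v y (EuclideanSpace.basisFun (Fin n) ℝ j)) +
    c1 * (v y * fderiv ℝ u y e) + c2 * (u y * fderiv ℝ v y e) +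
    ⟪y, e⟫ * (‖y‖ ^ A * v y ^ (p + 1) / (p + 1) + ‖y‖ ^ B * u y ^ (q + 1) / (q + 1))

theorem contDiffAt_flux {p q A B c1 c2 : ℝ} {u v : EuclideanSpace ℝ (Fin n) → ℝ}
    (H : PSol p q A B u v) {y : EuclideanSpace ℝ (Fin n)} (hy : y ≠ 0) (i : Fin n) :
    ContDiffAt ℝ 1 (flux p q A B c1 c2 u v i) y := by
  have hu := H.u2 y hy
  have hv := H.v2 y hy
  have du : ContDiffAt ℝ 1 (fun z => fderiv ℝ u z z) y :=
    (hu.fderiv_right (by norm_num)).clm_apply contDiffAt_id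
  have dv : ContDiffAt ℝ 1 (fun z => fderiv ℝ v z z) y :=
    (hv.fderiv_right (by norm_num)).clm_apply contDiffAt_id
  have hr : ∀ c : ℝ, ContDiffAt ℝ 1 (fun z : EuclideanSpace ℝ (Fin n) => ‖z‖ ^ c) y := fun c =>
    (contDiffAt_norm ℝ hy).rpow_const_of_ne (norm_ne_zero_iff.2 hy)
  have hi : ∀ e, ContDiffAt ℝ 1 (fun z : EuclideanSpace ℝ (Fin n) => ⟪z, e⟫) y := fun e =>
    contDiffAt_id.inner ℝ contDiffAt_const
  have hu1 : ContDiffAt ℝ 1 u y := hu.of_le (by norm_num)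
  have hv1 : ContDiffAt ℝ 1 v y := hv.of_le (by norm_num)
  exact (((((du.mul (contDiffAt_partial hv _)).add (dv.mul (contDiffAt_partial hu _))).sub
    ((hi _).mul (ContDiffAt.sum fun j _ =>
      (contDiffAt_partial hu _).mul (contDiffAt_partial hv _)))).add
    (contDiffAt_const.mul (hv1.mul (contDiffAt_partial hu _)))).add
    (contDiffAt_const.mul (hu1.mul (contDiffAt_partial hv _)))).add
    ((hi _).mul ((((hr A).mul (hv1.rpow_const_of_ne (H.vp y hy).ne')).div_const _).add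
      (((hr B).mul (hu1.rpow_const_of_ne (H.up y hy).ne')).div_const _)))

/-- The derivative of the flux in its own direction. -/
def dflux (p q A B c1 c2 : ℝ) (u v : EuclideanSpace ℝ (Fin n) → ℝ) (i : Fin n)
    (y : EuclideanSpace ℝ (Fin n)) : ℝ :=
  let b := EuclideanSpace.basisFun (Fin n) ℝ
  let Hu := fderiv ℝ (fderiv ℝ u) y
  let Hv := fderiv ℝ (fderiv ℝ v) y
  let Du := fderiv ℝ u y
  let Dv := fderiv ℝ v y
  (Hu (b i) y + Du (b i)) * Dv (b i) + Du y * Hv (b i) (b i) +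
      ((Hv (b i) y + Dv (b i)) * Du (b i) + Dv y * Hu (b i) (b i)) -
      ((∑ j, Du (b j) * Dv (b j)) + ⟪y, b i⟫ *
        ∑ j, (Hu (b i) (b j) * Dv (b j) + Du (b j) * Hv (b i) (b j))) +
      c1 * (Dv (b i) * Du (b i) + v y * Hu (b i) (b i)) +
      c2 * (Du (b i) * Dv (b i) + u y * Hv (b i) (b i)) +
      ((‖y‖ ^ A * v y ^ (p + 1) / (p + 1) + ‖y‖ ^ B * u y ^ (q + 1) / (q + 1)) + ⟪y, b i⟫ *
        ((A * ⟪y, b i⟫ / ‖y‖ ^ 2 * ‖y‖ ^ A * v y ^ (p + 1) / (p + 1) +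
            ‖y‖ ^ A * v y ^ p * Dv (b i)) +
          (B * ⟪y, b i⟫ / ‖y‖ ^ 2 * ‖y‖ ^ B * u y ^ (q + 1) / (q + 1) +
            ‖y‖ ^ B * u y ^ q * Du (b i))))

theorem fderiv_flux {p q A B c1 c2 : ℝ} (hp : 0 < p) (hq : 0 < q)
    {u v : EuclideanSpace ℝ (Fin n) → ℝ}
    (H : PSol p q A B u v) {y : EuclideanSpace ℝ (Fin n)} (hy : y ≠ 0) (i : Fin n) :
    fderiv ℝ (flux p q A B c1 c2 u v i) y (EuclideanSpace.basisFun (Fin n) ℝ i) =
      dflux p q A B c1 c2 u v i y := by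
  simp only [dflux]
  set b := EuclideanSpace.basisFun (Fin n) ℝ with hb
  set Hu := fderiv ℝ (fderiv ℝ u) y with hHu
  set Hv := fderiv ℝ (fderiv ℝ v) y with hHv
  set Du := fderiv ℝ u y with hDu
  set Dv := fderiv ℝ v y with hDv
  set e := b i with he
  set P : ℝ → EuclideanSpace ℝ (Fin n) := fun t => y + t • e with hPd
  have hP : HasDerivAt P e 0 := by
    simpa [hPd] using ((hasDerivAt_id (0 : ℝ)).smul_const e).const_add y
  have hP0 : P 0 = y := by simp [hPd]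
  have first : ∀ f : EuclideanSpace ℝ (Fin n) → ℝ, ContDiffAt ℝ 2 f y →
      HasDerivAt (fun t => f (P t)) (fderiv ℝ f y e) 0 ∧
      HasDerivAt (fun t => fderiv ℝ f (P t)) (fderiv ℝ (fderiv ℝ f) y e) 0 := fun f hf =>
    ⟨(hf.differentiableAt (by norm_num)).hasFDerivAt.comp_hasDerivAt_of_eq 0 hP hP0.symm,
      ((hf.fderiv_right (m := 1) (by norm_num)).differentiableAt
        (by norm_num)).hasFDerivAt.comp_hasDerivAt_of_eq 0 hP hP0.symm⟩
  obtain ⟨u1, u2⟩ := first u (H.u2 y hy)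
  obtain ⟨v1, v2⟩ := first v (H.v2 y hy)
  have dd : ∀ (f : EuclideanSpace ℝ (Fin n) → ℝ) (D2 : EuclideanSpace ℝ (Fin n) →L[ℝ] ℝ),
      HasDerivAt (fun t => fderiv ℝ f (P t)) D2 0 → ∀ w,
      HasDerivAt (fun t => fderiv ℝ f (P t) w) (D2 w) 0 := fun f D2 h w =>
    (h.clm_apply (hasDerivAt_const (0 : ℝ) w)).congr_deriv (by simp)
  have ray : ∀ (f : EuclideanSpace ℝ (Fin n) → ℝ) (D2 : EuclideanSpace ℝ (Fin n) →L[ℝ] ℝ),
      HasDerivAt (fun t => fderiv ℝ f (P t)) D2 0 →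
      HasDerivAt (fun t => fderiv ℝ f (P t) (P t)) (D2 y + fderiv ℝ f y e) 0 := fun f D2 h =>
    (h.clm_apply hP).congr_deriv (by simp [hP0])
  have hi : HasDerivAt (fun t => ⟪P t, e⟫) 1 0 := by
    have := hP.inner ℝ (hasDerivAt_const (0 : ℝ) e)
    simpa [he] using this
  have hy2 : 0 < ‖y‖ := norm_pos_iff.2 hy
  have hr : ∀ c : ℝ, HasDerivAt (fun t => ‖P t‖ ^ c) (c * ⟪y, e⟫ / ‖y‖ ^ 2 * ‖y‖ ^ c) 0 := by
    intro c
    have h1 : HasDerivAt (fun t => ‖P t‖ ^ 2) (2 * ⟪y, e⟫) 0 := by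
      have := hP.norm_sq
      simpa [hP0] using this
    have h2 := h1.rpow_const (p := c / 2) (Or.inl (by rw [hP0]; positivity))
    have hf : (fun t => ‖P t‖ ^ c) = fun t => (‖P t‖ ^ 2) ^ (c / 2) := funext fun t => by
      rw [← rpow_natCast ‖P t‖ 2, ← rpow_mul (norm_nonneg _)]; congr 1; push_cast; ring
    rw [hf]
    refine h2.congr_deriv ?_
    rw [hP0, rpow_sub_one (by positivity), ← rpow_natCast ‖y‖ 2, ← rpow_mul hy2.le,
      show ((2 : ℕ) : ℝ) * (c / 2) = c by push_cast; ring]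
    field_simp
  have pw : ∀ (f : EuclideanSpace ℝ (Fin n) → ℝ) (d r : ℝ), 0 < f y → 0 < r →
      HasDerivAt (fun t => f (P t)) d 0 →
      HasDerivAt (fun t => f (P t) ^ (r + 1) / (r + 1)) (f y ^ r * d) 0 := fun f d r hf hr0 h => by
    refine ((h.rpow_const (p := r + 1) (Or.inl (by rw [hP0]; exact hf.ne'))).div_const
      (r + 1)).congr_deriv ?_
    rw [hP0, add_sub_cancel_right]
    field_simp
  have hG1 := (hr A).mul (pw v _ p (H.vp y hy) hp v1)
  have hG2 := (hr B).mul (pw u _ q (H.up y hy) hq u1)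
  have hsum : HasDerivAt (fun t => ∑ j, fderiv ℝ u (P t) (b j) * fderiv ℝ v (P t) (b j))
      (∑ j, (Hu e (b j) * Dv (b j) + Du (b j) * Hv e (b j))) 0 :=
    HasDerivAt.fun_sum fun j _ =>
      ((dd u _ u2 (b j)).mul (dd v _ v2 (b j))).congr_deriv (by simp [hP0, Hu, Hv, Du, Dv])
  have hall := ((((((ray u _ u2).mul (dd v _ v2 e)).add ((ray v _ v2).mul (dd u _ u2 e))).sub
    (hi.mul hsum)).add ((v1.mul (dd u _ u2 e)).const_mul c1)).add
    ((u1.mul (dd v _ v2 e)).const_mul c2)).add (hi.mul (hG1.add hG2))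
  have hline : HasDerivAt (fun t => flux p q A B c1 c2 u v i (P t))
      (fderiv ℝ (flux p q A B c1 c2 u v i) y e) 0 :=
    ((contDiffAt_flux H hy i).differentiableAt
      one_ne_zero).hasFDerivAt.comp_hasDerivAt_of_eq 0 hP hP0.symm
  refine hline.unique ?_
  refine (hall.congr_of_eventuallyEq (Eventually.of_forall fun t => ?_)).congr_deriv ?_
  · simp only [flux, Pi.add_apply, Pi.mul_apply, Pi.sub_apply, b, he, mul_div_assoc]
  · simp only [hP0, Pi.add_apply, Pi.mul_apply, Hu, Hv, Du, Dv, mul_div_assoc]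
    ring

/-- The divergence of the flux. -/
theorem div_flux {p q A B c1 c2 : ℝ} (hp : 0 < p) (hq : 0 < q) (hc : c1 + c2 = (n : ℝ) - 2)
    {u v : EuclideanSpace ℝ (Fin n) → ℝ} (H : PSol p q A B u v)
    {y : EuclideanSpace ℝ (Fin n)} (hy : y ≠ 0) :
    ∑ i, fderiv ℝ (flux p q A B c1 c2 u v i) y (EuclideanSpace.basisFun (Fin n) ℝ i) =
      (((n : ℝ) + A) / (p + 1) - c1) * (‖y‖ ^ A * v y ^ (p + 1)) +
        (((n : ℝ) + B) / (q + 1) - c2) * (‖y‖ ^ B * u y ^ (q + 1)) := by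
  simp only [fderiv_flux hp hq H hy]
  set b := EuclideanSpace.basisFun (Fin n) ℝ
  set Hu := fderiv ℝ (fderiv ℝ u) y
  set Hv := fderiv ℝ (fderiv ℝ v) y
  set Du := fderiv ℝ u y
  set Dv := fderiv ℝ v y
  have symu := (H.u2 y hy).isSymmSndFDerivAt (by simp)
  have symv := (H.v2 y hy).isSymmSndFDerivAt (by simp)
  have hx1 : ∑ i, ⟪y, b i⟫ • b i = y := by
    simp_rw [real_inner_comm (b _) y]; exact b.sum_repr' y
  have hlin : ∀ L : EuclideanSpace ℝ (Fin n) →L[ℝ] ℝ, ∑ i, ⟪y, b i⟫ * L (b i) = L y := fun L => by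
    conv_rhs => rw [← hx1, map_sum]
    simp
  have hess : ∀ (T : EuclideanSpace ℝ (Fin n) →L[ℝ] EuclideanSpace ℝ (Fin n) →L[ℝ] ℝ) w,
      ∑ i, ⟪y, b i⟫ * T (b i) w = T y w := fun T w => by
    have h := congrArg (fun z => T z w) hx1
    simpa [map_sum] using h
  have hS : ∑ i, ⟪y, b i⟫ * ∑ j, (Hu (b i) (b j) * Dv (b j) + Du (b j) * Hv (b i) (b j)) =
      ∑ j, Hu (b j) y * Dv (b j) + ∑ j, Hv (b j) y * Du (b j) := by
    simp only [Finset.mul_sum, mul_add, Finset.sum_add_distrib]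
    congr 1
    · rw [Finset.sum_comm]
      refine Finset.sum_congr rfl fun j _ => ?_
      simp only [← mul_assoc, ← Finset.sum_mul]
      rw [hess Hu, symu.eq]
    · rw [Finset.sum_comm]
      refine Finset.sum_congr rfl fun j _ => ?_
      simp only [mul_left_comm _ (Du (b j)), ← Finset.mul_sum]
      rw [hess Hv, symv.eq, mul_comm]
  have lapu : ∑ i, Hu (b i) (b i) = -(‖y‖ ^ A * v y ^ p) := by
    rw [← H.eu y hy, neg_neg, laplacian_eq_iteratedFDeriv_orthonormalBasis u b]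
    simp [iteratedFDeriv_two_apply, Hu]
  have lapv : ∑ i, Hv (b i) (b i) = -(‖y‖ ^ B * u y ^ q) := by
    rw [← H.ev y hy, neg_neg, laplacian_eq_iteratedFDeriv_orthonormalBasis v b]
    simp [iteratedFDeriv_two_apply, Hv]
  have hsq : ∀ c d : ℝ, ∑ i, ⟪y, b i⟫ * (c * ⟪y, b i⟫ / ‖y‖ ^ 2 * d) = c * d := fun c d => by
    calc ∑ i, ⟪y, b i⟫ * (c * ⟪y, b i⟫ / ‖y‖ ^ 2 * d)
        = c * d / ‖y‖ ^ 2 * ∑ i, ⟪y, b i⟫ ^ 2 := by
          rw [Finset.mul_sum]; exact Finset.sum_congr rfl fun i _ => by ring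
      _ = _ := by
          rw [b.sum_sq_inner_left, div_mul_cancel₀ _ (pow_ne_zero _ (norm_ne_zero_iff.2 hy))]
  set S := ∑ j, Du (b j) * Dv (b j) with hSd
  set V0 := v y ^ (p + 1) / (p + 1) with hV0
  set U0 := u y ^ (q + 1) / (q + 1) with hU0
  obtain ⟨Z, hZ⟩ : ∃ Z : Fin n → ℝ, ∀ i,
      ⟪y, b i⟫ * (∑ j, (Hu (b i) (b j) * Dv (b j) + Du (b j) * Hv (b i) (b j))) = Z i :=
    ⟨_, fun i => rfl⟩
  simp only [hZ] at hS
  have hsplit : ∀ i, dflux p q A B c1 c2 u v i y =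
      Hu (b i) y * Dv (b i) + Hv (b i) y * Du (b i) + (2 + c1 + c2) * (Du (b i) * Dv (b i)) +
        (Du y + c2 * u y) * Hv (b i) (b i) + (Dv y + c1 * v y) * Hu (b i) (b i) -
        Z i +
        (‖y‖ ^ A * V0 + ‖y‖ ^ B * U0 - S) +
        ⟪y, b i⟫ * (A * ⟪y, b i⟫ / ‖y‖ ^ 2 * (‖y‖ ^ A * V0)) +
        ⟪y, b i⟫ * (B * ⟪y, b i⟫ / ‖y‖ ^ 2 * (‖y‖ ^ B * U0)) +
        ‖y‖ ^ A * v y ^ p * (⟪y, b i⟫ * Dv (b i)) +
        ‖y‖ ^ B * u y ^ q * (⟪y, b i⟫ * Du (b i)) := fun i => by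
    rw [← hZ i]
    simp only [dflux, hV0, hU0, hSd, b, Hu, Hv, Du, Dv]
    ring
  simp only [hsplit, Finset.sum_add_distrib, Finset.sum_sub_distrib, hsq, hS, ← Finset.mul_sum,
    hlin, lapu, lapv, Finset.sum_const, Finset.card_univ, Fintype.card_fin, nsmul_eq_mul]
  have hvp : v y ^ (p + 1) = v y ^ p * v y := rpow_add_one (H.vp y hy).ne' p
  have huq : u y ^ (q + 1) = u y ^ q * u y := rpow_add_one (H.up y hy).ne' q
  rw [← hSd, hV0, hU0, hvp, huq, show c2 = (n : ℝ) - 2 - c1 by linarith]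
  field_simp
  ring

theorem ratio_bound {r X : ℝ} (c : ℝ) (hX : 0 < X) (h1 : X / 2 ≤ r) (h2 : r ≤ 2 * X) :
    r ^ c ≤ (2 : ℝ) ^ |c| * X ^ c := by
  have h := (rpow_bounds (s := r / X) c (by rw [le_div_iff₀ hX]; linarith)
    (by rw [div_le_iff₀ hX]; linarith)).2
  rwa [div_rpow (by linarith) hX.le, div_le_iff₀ (rpow_pos_of_pos hX c)] at h

/-- Derivative bound by scaling. -/
theorem grad_scale {p A a b C₀ : ℝ} (hp : 0 < p) (hC : 0 ≤ C₀) :
    ∃ C, 0 ≤ C ∧ ∀ (u v : EuclideanSpace ℝ (Fin n) → ℝ) (x : EuclideanSpace ℝ (Fin n)), x ≠ 0 →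
      (∀ z, z ≠ 0 → ContDiffAt ℝ 2 u z ∧ 0 < u z ∧ 0 < v z ∧
        -(Δ u z) = ‖z‖ ^ A * v z ^ p) →
      (∀ z, ‖x‖ / 2 ≤ ‖z‖ → ‖z‖ ≤ 2 * ‖x‖ →
        u z ≤ C₀ * ‖x‖ ^ (-a) ∧ v z ≤ C₀ * ‖x‖ ^ (-b)) →
      ‖x‖ ^ (A - p * b) ≤ ‖x‖ ^ (-a - 2) → ‖fderiv ℝ u x‖ ≤ C * ‖x‖ ^ (-a - 1) := by
  refine ⟨2 * n * C₀ + (2 : ℝ) ^ |A| * C₀ ^ p, by positivity, fun u v x hx H hb hcond => ?_⟩
  set X := ‖x‖ with hX
  have hX0 : 0 < X := norm_pos_iff.2 hx
  have hin : ∀ z, dist z x ≤ X / 2 → X / 2 ≤ ‖z‖ ∧ ‖z‖ ≤ 2 * X ∧ z ≠ 0 := fun z hz => by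
    have h1 := norm_le_norm_add_norm_sub' x z
    have h2 := norm_le_norm_add_norm_sub' z x
    rw [← dist_eq_norm, dist_comm] at h1
    rw [← dist_eq_norm] at h2
    exact ⟨by linarith, by linarith, norm_pos_iff.1 (by linarith)⟩
  have h := grad_bound (U := u) (c := 0) (K := C₀ * X ^ (-a))
    (F := (2 : ℝ) ^ |A| * C₀ ^ p * X ^ (-a - 2)) (half_pos hX0) (by positivity)
    (fun z hz => (H z (hin z hz).2.2).1)
    (fun z hz => by
      obtain ⟨h1, h2, h0⟩ := hin z hz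
      rw [sub_zero, abs_of_pos (H z h0).2.1]
      exact (hb z h1 h2).1)
    (fun z hz => by
      obtain ⟨h1, h2, h0⟩ := hin z hz
      obtain ⟨-, -, hvz, he⟩ := H z h0
      have hpos : 0 ≤ ‖z‖ ^ A * v z ^ p := by positivity
      rw [abs_of_nonpos (by linarith), he]
      calc ‖z‖ ^ A * v z ^ p ≤ (2 : ℝ) ^ |A| * X ^ A * (C₀ * X ^ (-b)) ^ p :=
            mul_le_mul (ratio_bound A hX0 h1 h2) (rpow_le_rpow hvz.le (hb z h1 h2).2 hp.le)
              (by positivity) (by positivity)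
        _ = (2 : ℝ) ^ |A| * C₀ ^ p * X ^ (A - p * b) := by
            rw [mul_rpow hC (rpow_nonneg hX0.le _), ← rpow_mul hX0.le,
              show A - p * b = A + -b * p by ring, rpow_add hX0]
            ring
        _ ≤ _ := mul_le_mul_of_nonneg_left hcond (by positivity))
  refine h.trans ?_
  rw [show X ^ (-a - 2) = X ^ (-a - 1) / X by rw [← rpow_sub_one hX0.ne']; ring_nf,
    show X ^ (-a) = X ^ (-a - 1) * X by rw [← rpow_add_one hX0.ne']; ring_nf]
  have hQ : (0 : ℝ) ≤ (2 : ℝ) ^ |A| * C₀ ^ p * X ^ (-a - 1) := by positivity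
  have : (0 : ℝ) ≤ (2 : ℝ) ^ |A| * C₀ ^ p := by positivity
  field_simp
  linarith

/-- The flux is of the scaling order. -/
theorem flux_bound {p q A B c1 c2 a b C₀ : ℝ} (hp : 0 < p) (hq : 0 < q) (hC : 0 ≤ C₀) :
    ∃ C, 0 ≤ C ∧ ∀ (u v : EuclideanSpace ℝ (Fin n) → ℝ), PSol p q A B u v →
      ∀ x : EuclideanSpace ℝ (Fin n), x ≠ 0 →
      (∀ z, ‖x‖ / 2 ≤ ‖z‖ → ‖z‖ ≤ 2 * ‖x‖ →
        u z ≤ C₀ * ‖x‖ ^ (-a) ∧ v z ≤ C₀ * ‖x‖ ^ (-b)) →
      ‖x‖ ^ (A - p * b) ≤ ‖x‖ ^ (-a - 2) → ‖x‖ ^ (B - q * a) ≤ ‖x‖ ^ (-b - 2) →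
      ∀ i, |flux p q A B c1 c2 u v i x| ≤ C * ‖x‖ ^ (-(a + b + 1)) := by
  obtain ⟨G₁, hG₁, hu⟩ := grad_scale (n := n) (A := A) (a := a) (b := b) hp hC
  obtain ⟨G₂, hG₂, hv⟩ := grad_scale (n := n) (A := B) (a := b) (b := a) hq hC
  refine ⟨(2 + n) * (G₁ * G₂) + |c1| * (C₀ * G₁) + |c2| * (C₀ * G₂) + C₀ ^ (p + 1) +
    C₀ ^ (q + 1), by positivity, fun u v H x hx hb hc₁ hc₂ i => ?_⟩
  have hX0 : 0 < ‖x‖ := norm_pos_iff.2 hx
  set X := ‖x‖ with hX
  have gu := hu u v x hx (fun z hz => ⟨H.u2 z hz, H.up z hz, H.vp z hz, H.eu z hz⟩) hb hc₁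
  have gv := hv v u x hx (fun z hz => ⟨H.v2 z hz, H.vp z hz, H.up z hz, H.ev z hz⟩)
    (fun z h h' => ⟨(hb z h h').2, (hb z h h').1⟩) hc₂
  obtain ⟨bu, bv⟩ := hb x (by linarith) (by linarith)
  set e := EuclideanSpace.basisFun (Fin n) ℝ
  set Du := fderiv ℝ u x
  set Dv := fderiv ℝ v x
  have he : ∀ j, ‖e j‖ = 1 := fun j => e.orthonormal.1 j
  have dx : ∀ D : EuclideanSpace ℝ (Fin n) →L[ℝ] ℝ, |D x| ≤ ‖D‖ * X ∧ ∀ j, |D (e j)| ≤ ‖D‖ :=
    fun D => ⟨D.le_opNorm x, fun j => by simpa [he] using D.le_opNorm (e j)⟩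
  have hin : |⟪x, e i⟫| ≤ X := by simpa [he] using abs_real_inner_le_norm x (e i)
  set P := X ^ (-(a + b + 1)) with hP
  have hP0 : 0 ≤ P := by positivity
  have e12 : X * (X ^ (-a - 1) * X ^ (-b - 1)) = P := by
    rw [hP, show -(a + b + 1) = 1 + ((-a - 1) + (-b - 1)) by ring, rpow_add hX0, rpow_add hX0,
      rpow_one]
  have t0 : ‖Du‖ * ‖Dv‖ * X ≤ G₁ * G₂ * P := by
    calc ‖Du‖ * ‖Dv‖ * X ≤ G₁ * X ^ (-a - 1) * (G₂ * X ^ (-b - 1)) * X :=
          mul_le_mul_of_nonneg_right (mul_le_mul gu gv (norm_nonneg _) (by positivity)) hX0.le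
      _ = _ := by rw [← e12]; ring
  have t1 : |Du x * Dv (e i)| ≤ G₁ * G₂ * P := by
    rw [abs_mul]
    refine le_trans (mul_le_mul (dx Du).1 ((dx Dv).2 i) (abs_nonneg _) (by positivity)) ?_
    linarith
  have t2 : |Dv x * Du (e i)| ≤ G₁ * G₂ * P := by
    rw [abs_mul]
    refine le_trans (mul_le_mul (dx Dv).1 ((dx Du).2 i) (abs_nonneg _) (by positivity)) ?_
    linarith
  have t3 : |⟪x, e i⟫ * ∑ j, Du (e j) * Dv (e j)| ≤ n * (G₁ * G₂ * P) := by
    have h : |∑ j, Du (e j) * Dv (e j)| ≤ n * (‖Du‖ * ‖Dv‖) := by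
      refine (Finset.abs_sum_le_sum_abs _ _).trans ((Finset.sum_le_sum (g := fun _ => ‖Du‖ * ‖Dv‖)
        fun j _ => ?_).trans_eq (by simp))
      rw [abs_mul]
      exact mul_le_mul ((dx Du).2 j) ((dx Dv).2 j) (abs_nonneg _) (norm_nonneg _)
    rw [abs_mul]
    refine le_trans (mul_le_mul hin h (abs_nonneg _) hX0.le) ?_
    nlinarith [mul_le_mul_of_nonneg_left t0 (Nat.cast_nonneg (α := ℝ) n)]
  have t45 : ∀ (c f a' b' G : ℝ) (D : EuclideanSpace ℝ (Fin n) →L[ℝ] ℝ), 0 < f →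
      f ≤ C₀ * X ^ (-b') → ‖D‖ ≤ G * X ^ (-a' - 1) → a' + b' = a + b →
      |c * (f * D (e i))| ≤ |c| * (C₀ * G * P) := by
    intro c f a' b' G D hf hfb hD hab
    rw [abs_mul, abs_mul, abs_of_pos hf]
    refine mul_le_mul_of_nonneg_left ?_ (abs_nonneg c)
    refine le_trans (mul_le_mul hfb (((dx D).2 i).trans hD) (abs_nonneg _) (by positivity)) ?_
    rw [hP, ← hab, show -(a' + b' + 1) = -b' + (-a' - 1) by ring, rpow_add hX0]
    exact le_of_eq (by ring)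
  have t6 : ∀ (r X' a' b' f : ℝ), 0 < r → 0 < f → f ≤ C₀ * X ^ (-b') → a' + b' = a + b →
      X ^ (X' - r * b') ≤ X ^ (-a' - 2) →
      0 ≤ X ^ X' * f ^ (r + 1) / (r + 1) ∧
        X * (X ^ X' * f ^ (r + 1) / (r + 1)) ≤ C₀ ^ (r + 1) * P := by
    intro r X' a' b' f hr hf hfb hab hcond
    have h0 : 0 ≤ X ^ X' * f ^ (r + 1) / (r + 1) := by positivity
    refine ⟨h0, ?_⟩
    have h1 : X ^ X' * f ^ (r + 1) / (r + 1) ≤ X ^ X' * (C₀ * X ^ (-b')) ^ (r + 1) :=
      (div_le_self (by positivity) (by linarith)).trans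
        (mul_le_mul_of_nonneg_left (rpow_le_rpow hf.le hfb (by linarith)) (by positivity))
    refine (mul_le_mul_of_nonneg_left h1 hX0.le).trans ?_
    rw [mul_rpow hC (rpow_nonneg hX0.le _), ← rpow_mul hX0.le]
    have h2 : X ^ X' * X ^ (-b' * (r + 1)) = X ^ (X' - r * b') * X ^ (-b') := by
      rw [← rpow_add hX0, ← rpow_add hX0]; ring_nf
    calc X * (X ^ X' * (C₀ ^ (r + 1) * X ^ (-b' * (r + 1))))
        = C₀ ^ (r + 1) * (X ^ (X' - r * b') * (X * X ^ (-b'))) := by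
          rw [mul_left_comm (X ^ X'), h2]; ring
      _ ≤ C₀ ^ (r + 1) * (X ^ (-a' - 2) * (X * X ^ (-b'))) := by gcongr
      _ = _ := by
          rw [hP, ← hab, show -(a' + b' + 1) = (-a' - 2) + (1 + -b') by ring, rpow_add hX0,
            rpow_add hX0, rpow_one]
  obtain ⟨q0, q1⟩ := t6 p A a b (v x) hp (H.vp x hx) bv rfl hc₁
  obtain ⟨r0, r1⟩ := t6 q B b a (u x) hq (H.up x hx) bu (by ring) hc₂
  have t7 : |⟪x, e i⟫ * (X ^ A * v x ^ (p + 1) / (p + 1) + X ^ B * u x ^ (q + 1) / (q + 1))| ≤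
      (C₀ ^ (p + 1) + C₀ ^ (q + 1)) * P := by
    rw [abs_mul, abs_of_nonneg (add_nonneg q0 r0)]
    refine (mul_le_mul_of_nonneg_right hin (add_nonneg q0 r0)).trans ?_
    linarith
  have t4 := t45 c1 (v x) a b G₁ Du (H.vp x hx) bv gu rfl
  have t5 := t45 c2 (u x) b a G₂ Dv (H.up x hx) bu gv (by ring)
  rw [abs_le] at t1 t2 t3 t4 t5 t7 ⊢
  simp only [flux]
  constructor <;> linarith [t1.1, t1.2, t2.1, t2.2, t3.1, t3.2, t4.1, t4.2, t5.1, t5.2, t7.1, t7.2]

/-- A smooth step: one up to `1`, zero from `2` on. -/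
def chi (s : ℝ) : ℝ := pp 3 (1 - pp 3 (s - 1))

theorem contDiff_chi : ContDiff ℝ 2 chi :=
  (contDiff_pp 0).comp (contDiff_const.sub ((contDiff_pp 0).comp (contDiff_id.sub contDiff_const)))

theorem chi_mem (s : ℝ) : 0 ≤ chi s ∧ chi s ≤ 1 := by
  refine ⟨pp_nonneg _ _, ?_⟩
  simp only [chi, pp]
  refine pow_le_one₀ (le_max_right _ _) (max_le ?_ zero_le_one)
  have : (0 : ℝ) ≤ max (s - 1) 0 ^ 3 := by positivity
  linarith

theorem chi_one {s : ℝ} (h : s ≤ 1) : chi s = 1 := by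
  rw [chi, pp_eq_zero (by norm_num) (show s - 1 ≤ 0 by linarith)]
  norm_num [pp]

theorem chi_zero {s : ℝ} (h : 2 ≤ s) : chi s = 0 := by
  refine pp_eq_zero (by norm_num) ?_
  simp only [pp]
  rw [max_eq_left (by linarith)]
  have : (1 : ℝ) ≤ (s - 1) ^ 3 := one_le_pow₀ (by linarith)
  linarith

theorem chi_deriv : ∃ L, 0 ≤ L ∧ ∀ s, |deriv chi s| ≤ L ∧ (s < 1 ∨ 2 < s → deriv chi s = 0) := by
  have hc : Continuous (deriv chi) := contDiff_chi.continuous_deriv (by norm_num)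
  have h0 : ∀ s, s < 1 ∨ 2 < s → deriv chi s = 0 := by
    rintro s (hs | hs)
    · have : chi =ᶠ[𝓝 s] fun _ => 1 := by
        filter_upwards [eventually_lt_nhds hs] with t ht using chi_one ht.le
      rw [this.deriv_eq]; simp
    · have : chi =ᶠ[𝓝 s] fun _ => 0 := by
        filter_upwards [eventually_gt_nhds hs] with t ht using chi_zero ht.le
      rw [this.deriv_eq]; simp
  obtain ⟨M, hM⟩ := (isCompact_Icc (a := (1 : ℝ)) (b := 2)).exists_bound_of_continuousOn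
    hc.continuousOn
  refine ⟨max M 0, le_max_right _ _, fun s => ⟨?_, h0 s⟩⟩
  by_cases hs : s ∈ Icc (1 : ℝ) 2
  · exact le_max_of_le_left (hM s hs)
  · rw [h0 s (by simp only [mem_Icc, not_and_or, not_le] at hs; exact hs), abs_zero]
    exact le_max_right _ _

/-- The radial cutoff of radius `R`. -/
def rcut (R : ℝ) (y : EuclideanSpace ℝ (Fin n)) : ℝ := chi (‖y‖ ^ 2 / R ^ 2)

theorem contDiff_rcut (R : ℝ) : ContDiff ℝ 1 (rcut (n := n) R) :=
  (contDiff_chi.of_le (by norm_num)).comp ((contDiff_norm_sq ℝ).div_const _)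

theorem fderiv_rcut : ∃ L, 0 ≤ L ∧ ∀ (R : ℝ) (y e : EuclideanSpace ℝ (Fin n)), 0 < R → ‖e‖ = 1 →
    |fderiv ℝ (rcut R) y e| ≤ L / R ∧
      (‖y‖ < R ∨ 2 * R < ‖y‖ → fderiv ℝ (rcut R) y e = 0) := by
  obtain ⟨L, hL, hchi⟩ := chi_deriv
  refine ⟨4 * L, by positivity, fun R y e hR he => ?_⟩
  set s := ‖y‖ ^ 2 / R ^ 2 with hs
  have hd : HasDerivAt (fun t : ℝ => rcut R (y + t • e)) (deriv chi s * (2 * ⟪y, e⟫ / R ^ 2)) 0 := by
    have hP : HasDerivAt (fun t : ℝ => y + t • e) e 0 := by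
      simpa using ((hasDerivAt_id (0 : ℝ)).smul_const e).const_add y
    have h1 : HasDerivAt (fun t : ℝ => ‖y + t • e‖ ^ 2 / R ^ 2) (2 * ⟪y, e⟫ / R ^ 2) 0 := by
      have := hP.norm_sq.div_const (R ^ 2)
      simpa using this
    exact ((contDiff_chi.differentiable (by norm_num) s).hasDerivAt).comp_of_eq 0 h1 (by simp [hs])
  have hd' : HasDerivAt (fun t : ℝ => rcut R (y + t • e)) (fderiv ℝ (rcut R) y e) 0 :=
    (((contDiff_rcut R).differentiable one_ne_zero) y).hasFDerivAt.comp_hasDerivAt_of_eq 0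
      (by simpa using ((hasDerivAt_id (0 : ℝ)).smul_const e).const_add y) (by simp)
  rw [hd'.unique hd]
  have hzero : ‖y‖ < R ∨ 2 * R < ‖y‖ → deriv chi s = 0 := by
    intro h
    refine (hchi s).2 (h.imp (fun h => ?_) fun h => ?_)
    · rw [hs, div_lt_one (by positivity)]
      exact pow_lt_pow_left₀ h (norm_nonneg y) two_ne_zero
    · rw [hs, lt_div_iff₀ (by positivity)]
      nlinarith
  refine ⟨?_, fun h => by rw [hzero h, zero_mul]⟩
  by_cases h : ‖y‖ < R ∨ 2 * R < ‖y‖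
  · rw [hzero h, zero_mul, abs_zero]; positivity
  push Not at h
  have h2 : |⟪y, e⟫| ≤ 2 * R := by
    have := abs_real_inner_le_norm y e
    rw [he, mul_one] at this
    linarith [h.2]
  rw [abs_mul, abs_div, abs_mul, abs_two, abs_of_pos (show 0 < R ^ 2 by positivity)]
  refine (mul_le_mul (hchi s).1 (div_le_div_of_nonneg_right
    (mul_le_mul_of_nonneg_left h2 two_pos.le) (by positivity)) (by positivity) hL).trans
    (le_of_eq ?_)
  field_simp
  ring

/-- The cutoff vanishing near the origin and near infinity. -/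
def ring2 (R ε : ℝ) (y : EuclideanSpace ℝ (Fin n)) : ℝ := rcut R y * (1 - rcut ε y)

theorem ring2_nonneg (R ε : ℝ) (y : EuclideanSpace ℝ (Fin n)) : 0 ≤ ring2 R ε y :=
  mul_nonneg (chi_mem _).1 (sub_nonneg.2 (chi_mem _).2)

theorem ring2_zero {R ε : ℝ} (hR : 0 < R) (hε : 0 < ε) {y : EuclideanSpace ℝ (Fin n)}
    (hy : y ∉ closedBall (0 : EuclideanSpace ℝ (Fin n)) (2 * R) ∩ {z | ε ≤ ‖z‖}) :
    ring2 R ε y = 0 := by
  simp only [mem_inter_iff, mem_closedBall_zero_iff, mem_setOf_eq, not_and_or, not_le] at hy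
  rcases hy with h | h
  · rw [ring2, rcut, chi_zero, zero_mul]
    rw [le_div_iff₀ (by positivity)]
    nlinarith
  · rw [ring2, rcut, rcut, chi_one (s := ‖y‖ ^ 2 / ε ^ 2), sub_self, mul_zero]
    rw [div_le_one (by positivity)]
    exact pow_le_pow_left₀ (norm_nonneg y) h.le 2

theorem fderiv_ring2 {L R ε : ℝ} (hL : ∀ (R : ℝ) (y e : EuclideanSpace ℝ (Fin n)), 0 < R →
    ‖e‖ = 1 → |fderiv ℝ (rcut R) y e| ≤ L / R ∧
      (‖y‖ < R ∨ 2 * R < ‖y‖ → fderiv ℝ (rcut R) y e = 0)) (hR : 0 < R) (hε : 0 < ε)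
    (y : EuclideanSpace ℝ (Fin n)) {e : EuclideanSpace ℝ (Fin n)} (he : ‖e‖ = 1) :
    |fderiv ℝ (ring2 R ε) y e| ≤
      |fderiv ℝ (rcut R) y e| + |fderiv ℝ (rcut ε) y e| := by
  have d1 : DifferentiableAt ℝ (rcut R) y := (contDiff_rcut R).differentiable one_ne_zero y
  have d2 : DifferentiableAt ℝ (fun z => 1 - rcut ε z) y :=
    ((contDiff_rcut ε).differentiable one_ne_zero y).const_sub 1
  have e0 : ring2 R ε = fun z : EuclideanSpace ℝ (Fin n) => rcut R z * (1 - rcut ε z) := rfl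
  rw [e0, fderiv_fun_mul d1 d2, fderiv_const_sub]
  simp only [ContinuousLinearMap.add_apply, ContinuousLinearMap.smul_apply, smul_eq_mul,
    ContinuousLinearMap.neg_apply]
  obtain ⟨a1, a2⟩ := chi_mem (‖y‖ ^ 2 / R ^ 2)
  obtain ⟨b1, b2⟩ := chi_mem (‖y‖ ^ 2 / ε ^ 2)
  refine (abs_add_le _ _).trans ?_
  rw [add_comm |fderiv ℝ (rcut R) y e|, abs_mul, abs_mul, abs_neg]
  refine add_le_add (mul_le_of_le_one_left (abs_nonneg _) ?_)
    (mul_le_of_le_one_left (abs_nonneg _) ?_)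
  · rw [abs_of_nonneg (show 0 ≤ rcut R y from a1)]; exact a2
  · simp only [rcut]
    rw [abs_of_nonneg (by linarith)]; linarith

/-- The cutoff identity: the source is bounded by the flux through two shells. -/
theorem cutoff_le {p q A B c1 c2 gap α β F₁ F₀ L vol R ε : ℝ} (hn : 3 ≤ n) (hp : 0 < p) (hq : 0 < q)
    (hαβ : 0 < α + β + 1) (hc : c1 + c2 = (n : ℝ) - 2)
    (hc1 : c1 = ((n : ℝ) + A) / (p + 1) - gap) (hc2 : c2 = ((n : ℝ) + B) / (q + 1) - gap)
    (hF₁ : 0 ≤ F₁) (hF₀ : 0 ≤ F₀) (hL : 0 ≤ L)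
    {u v bump Q : EuclideanSpace ℝ (Fin n) → ℝ} (H : PSol p q A B u v)
    (hQ : Q = fun y => gap * (‖y‖ ^ A * v y ^ (p + 1)) + gap * (‖y‖ ^ B * u y ^ (q + 1)))
    (hQc : ∀ y, y ≠ 0 → ContinuousAt Q y ∧ 0 < Q y)
    (hbz : ∀ y, ¬ (1 ≤ ‖y‖ ∧ ‖y‖ ≤ 2) → bump y = 0) (hb1 : ∀ y, bump y ≤ 1)
    (hcG : Continuous fun y => bump y * Q y)
    (finf : ∀ (x : EuclideanSpace ℝ (Fin n)) i, x ≠ 0 →
      |flux p q A B c1 c2 u v i x| ≤ F₁ * ‖x‖ ^ (-(α + β + 1)))
    (fzero : ∀ (x : EuclideanSpace ℝ (Fin n)) i, x ≠ 0 → ‖x‖ ≤ 1 →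
      |flux p q A B c1 c2 u v i x| ≤ F₀ / ‖x‖)
    (hcut : ∀ (R : ℝ) (y e : EuclideanSpace ℝ (Fin n)), 0 < R → ‖e‖ = 1 →
      |fderiv ℝ (rcut R) y e| ≤ L / R ∧
        (‖y‖ < R ∨ 2 * R < ‖y‖ → fderiv ℝ (rcut R) y e = 0))
    (hball : ∀ r : ℝ, 0 < r →
      volume.real (closedBall (0 : EuclideanSpace ℝ (Fin n)) r) = r ^ n * vol)
    (hR : 4 ≤ R) (hε : 0 < ε) (hε1 : ε ≤ 1 / 4) :
    ∫ y, bump y * Q y ≤ n * (L / R * (F₁ * R ^ (-(α + β + 1))) * ((2 * R) ^ n * vol) +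
      L / ε * (F₀ / ε) * ((2 * ε) ^ n * vol)) := by
  have hn3 : (3 : ℝ) ≤ n := by exact_mod_cast hn
  have hR0 : 0 < R := by linarith
  set K := closedBall (0 : EuclideanSpace ℝ (Fin n)) (2 * R) ∩ {z | ε ≤ ‖z‖} with hK
  have hKc : IsCompact K :=
    (isCompact_closedBall 0 _).inter_right (isClosed_le continuous_const continuous_norm)
  have hKne : ∀ y ∈ K, y ≠ 0 := fun y hy => norm_pos_iff.1 (hε.trans_le hy.2)
  have hF : ContDiff ℝ 1 (ring2 (n := n) R ε) :=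
    (contDiff_rcut R).mul (contDiff_const.sub (contDiff_rcut ε))
  set b := EuclideanSpace.basisFun (Fin n) ℝ
  have hint : ∀ i, Integrable (fun y =>
      ring2 R ε y * fderiv ℝ (flux p q A B c1 c2 u v i) y (b i)) := fun i =>
    integrable_supp hKc (fun y hy => hF.continuous.continuousAt.mul
      (((contDiffAt_flux H (hKne y hy) i).continuousAt_fderiv one_ne_zero).clm_apply
        continuousAt_const)) fun y hy => by simp [ring2_zero hR0 hε hy]
  have h1 : ∫ y, ring2 R ε y * Q y =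
      ∑ i, ∫ y, ring2 R ε y * fderiv ℝ (flux p q A B c1 c2 u v i) y (b i) := by
    rw [← integral_finsetSum _ fun i _ => hint i]
    refine integral_congr_ae (Eventually.of_forall fun y => ?_)
    by_cases hy : y ∈ K
    · simp only [← Finset.mul_sum]
      rw [div_flux hp hq hc H (hKne y hy), hc1, hc2]
      simp only [hQ, sub_sub_cancel]
    · simp [ring2_zero hR0 hε hy]
  have h2 : ∫ y, bump y * Q y ≤ ∫ y, ring2 R ε y * Q y := by
    refine integral_mono (hcG.integrable_of_hasCompactSupport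
      (HasCompactSupport.intro (isCompact_closedBall 0 2) fun y hy => by
        rw [hbz y (fun h => hy (mem_closedBall_zero_iff.2 h.2)), zero_mul]))
      (integrable_supp hKc (fun y hy =>
        hF.continuous.continuousAt.mul (hQc y (hKne y hy)).1)
        fun y hy => by simp [ring2_zero hR0 hε hy]) fun y => ?_
    by_cases hy : 1 ≤ ‖y‖ ∧ ‖y‖ ≤ 2
    · have hy0 : y ≠ 0 := norm_pos_iff.1 (by linarith [hy.1])
      have : ring2 R ε y = 1 := by
        rw [ring2, rcut, rcut, chi_one, chi_zero, sub_zero, mul_one]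
        · rw [le_div_iff₀ (by positivity)]
          nlinarith [hy.1]
        · rw [div_le_one (by positivity)]
          nlinarith [hy.2, norm_nonneg y]
      simp only [this, one_mul]
      exact mul_le_of_le_one_left (hQc y hy0).2.le (hb1 y)
    · simp only [hbz y hy, zero_mul]
      by_cases hyK : y ∈ K
      · exact mul_nonneg (ring2_nonneg _ _ _) (hQc y (hKne y hyK)).2.le
      · simp [ring2_zero hR0 hε hyK]
  refine h2.trans (h1.le.trans ?_)
  refine (Finset.sum_le_card_nsmul _ _ _ fun i _ => ?_).trans_eq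
    (by rw [Finset.card_univ, Fintype.card_fin, nsmul_eq_mul])
  rw [ibp hKc hF (fun y hy => ring2_zero hR0 hε hy) (fun y hy => contDiffAt_flux H (hKne y hy) i)
    (b i)]
  set g : EuclideanSpace ℝ (Fin n) → ℝ := fun y =>
    (closedBall (0 : EuclideanSpace ℝ (Fin n)) (2 * R)).indicator
        (fun _ => L / R * (F₁ * R ^ (-(α + β + 1)))) y +
      (closedBall (0 : EuclideanSpace ℝ (Fin n)) (2 * ε)).indicator
        (fun _ => L / ε * (F₀ / ε)) y with hg
  have hgi : ∀ r c : ℝ, Integrable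
      ((closedBall (0 : EuclideanSpace ℝ (Fin n)) r).indicator fun _ => c) := fun r c =>
    (integrable_indicator_iff measurableSet_closedBall).2
      (integrableOn_const (isCompact_closedBall 0 r).measure_lt_top.ne)
  have hpt : ∀ y, ‖fderiv ℝ (ring2 R ε) y (b i) * flux p q A B c1 c2 u v i y‖ ≤ g y := by
    intro y
    have hg0 : ∀ (r c : ℝ), 0 ≤ c →
        0 ≤ (closedBall (0 : EuclideanSpace ℝ (Fin n)) r).indicator (fun _ => c) y :=
      fun r c hc' => indicator_nonneg (fun _ _ => hc') y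
    obtain ⟨r1, r0⟩ := hcut R y (b i) hR0 (b.orthonormal.1 i)
    obtain ⟨s1, s0⟩ := hcut ε y (b i) hε (b.orthonormal.1 i)
    have h3 := fderiv_ring2 hcut hR0 hε y (b.orthonormal.1 i)
    rw [Real.norm_eq_abs, abs_mul]
    refine (mul_le_mul_of_nonneg_right h3 (abs_nonneg _)).trans ?_
    rw [add_mul]
    refine add_le_add ?_ ?_
    · by_cases h : ‖y‖ < R ∨ 2 * R < ‖y‖
      · rw [r0 h, abs_zero, zero_mul]
        exact hg0 _ _ (by positivity)
      push Not at h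
      rw [indicator_of_mem (mem_closedBall_zero_iff.2 h.2)]
      refine mul_le_mul r1 ((finf y i (norm_pos_iff.1 (by linarith [h.1]))).trans ?_)
        (abs_nonneg _) (by positivity)
      exact mul_le_mul_of_nonneg_left
        (rpow_le_rpow_of_nonpos hR0 h.1 (by linarith)) hF₁
    · by_cases h : ‖y‖ < ε ∨ 2 * ε < ‖y‖
      · rw [s0 h, abs_zero, zero_mul]
        exact hg0 _ _ (by positivity)
      push Not at h
      rw [indicator_of_mem (mem_closedBall_zero_iff.2 h.2)]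
      refine mul_le_mul s1 ((fzero y i (norm_pos_iff.1 (by linarith [h.1])) (by linarith [h.2])).trans
        ?_) (abs_nonneg _) (by positivity)
      exact div_le_div_of_nonneg_left hF₀ hε h.1
  refine (neg_le_abs _).trans ?_
  have h4 := norm_integral_le_of_norm_le ((hgi _ _).add (hgi _ _)) (Eventually.of_forall hpt)
  rw [Real.norm_eq_abs] at h4
  refine h4.trans (le_of_eq ?_)
  rw [integral_add' (hgi _ _) (hgi _ _), integral_indicator_const _ measurableSet_closedBall,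
    integral_indicator_const _ measurableSet_closedBall, hball _ (by positivity),
    hball _ (by positivity), smul_eq_mul, smul_eq_mul]
  ring

/-- Subcritical parameters and pointwise scaling bounds leave no positive entire solution. -/
theorem no_solution (hn : 3 ≤ n) {p q A B : ℝ} (hp : 0 < p) (hq : 0 < q) (hA : -2 < A)
    (hB : -2 < B) (hpq : 1 < p * q)
    (hsub : ((n : ℝ) + A) / (p + 1) + ((n : ℝ) + B) / (q + 1) > (n : ℝ) - 2)
    (hcase : (((n : ℝ) - 2) * (p * q - 1) < 4 * (p + 1) ∧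
        ((n : ℝ) - 2) * (p * q - 1) < 4 * (q + 1)) ∨
      ((n : ℝ) - 2) * (p * q - 1) < 2 * (max p q + 1))
    {u v : EuclideanSpace ℝ (Fin n) → ℝ} (hu : Continuous u) (hv : Continuous v)
    (H : PSol p q A B u v) : False := by
  have hn3 : (3 : ℝ) ≤ n := by exact_mod_cast hn
  have hd : 0 < p * q - 1 := by linarith
  set α := (2 + A + p * (2 + B)) / (p * q - 1) with hα
  set β := (2 + B + q * (2 + A)) / (p * q - 1) with hβ
  have hα0 : 0 < α := div_pos (by nlinarith) hd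
  have hβ0 : 0 < β := div_pos (by nlinarith) hd
  have e1 : A - p * β = -α - 2 := by
    rw [hα, hβ, mul_div_assoc', sub_div' hd.ne', ← neg_div, div_sub' hd.ne', div_left_inj' hd.ne']
    ring
  have e2 : B - q * α = -β - 2 := by
    rw [hα, hβ, mul_div_assoc', sub_div' hd.ne', ← neg_div, div_sub' hd.ne', div_left_inj' hd.ne']
    ring
  have hαβ : (n : ℝ) - 2 < α + β := by
    have e : (p + 1) * (q + 1) * (((n : ℝ) + A) / (p + 1) + ((n : ℝ) + B) / (q + 1)) =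
        ((n : ℝ) + A) * (q + 1) + ((n : ℝ) + B) * (p + 1) := by field_simp
    have h := mul_lt_mul_of_pos_left hsub (show 0 < (p + 1) * (q + 1) by positivity)
    rw [e] at h
    rw [hα, hβ, ← add_div, lt_div_iff₀ hd]
    linarith
  set gap := (((n : ℝ) + A) / (p + 1) + ((n : ℝ) + B) / (q + 1) - ((n : ℝ) - 2)) / 2 with hgap
  have hgap0 : 0 < gap := by linarith
  set c1 := ((n : ℝ) + A) / (p + 1) - gap with hc1
  set c2 := ((n : ℝ) + B) / (q + 1) - gap with hc2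
  have hc : c1 + c2 = (n : ℝ) - 2 := by rw [hc1, hc2, hgap]; ring
  obtain ⟨C, hC, hbd⟩ := apriori hn p q A B hp hq hpq hcase
  -- constants near the origin
  obtain ⟨Mu, hMu⟩ := (isCompact_closedBall (0 : EuclideanSpace ℝ (Fin n)) 2).bddAbove_image
    hu.continuousOn
  obtain ⟨Mv, hMv⟩ := (isCompact_closedBall (0 : EuclideanSpace ℝ (Fin n)) 2).bddAbove_image
    hv.continuousOn
  obtain ⟨F₁, hF₁, f1⟩ := flux_bound (n := n) (p := p) (q := q) (A := A) (B := B) (c1 := c1)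
    (c2 := c2) (a := α) (b := β) (C₀ := C * (2 : ℝ) ^ α + C * (2 : ℝ) ^ β) hp hq (by positivity)
  obtain ⟨F₀, hF₀, f0⟩ := flux_bound (n := n) (p := p) (q := q) (A := A) (B := B) (c1 := c1)
    (c2 := c2) (a := 0) (b := 0) (C₀ := max (max Mu Mv) 0) hp hq (le_max_right _ _)
  have finf : ∀ (x : EuclideanSpace ℝ (Fin n)) i, x ≠ 0 →
      |flux p q A B c1 c2 u v i x| ≤ F₁ * ‖x‖ ^ (-(α + β + 1)) := by
    intro x i hx
    refine f1 u v H x hx (fun z hz hz' => ?_) (le_of_eq (by rw [e1])) (le_of_eq (by rw [e2])) i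
    have hX : 0 < ‖x‖ := norm_pos_iff.2 hx
    obtain ⟨bu, bv⟩ := hbd u v H z (norm_pos_iff.1 (by linarith))
    have r1 := ratio_bound (-α) hX hz hz'
    have r2 := ratio_bound (-β) hX hz hz'
    rw [abs_neg, abs_of_pos hα0] at r1
    rw [abs_neg, abs_of_pos hβ0] at r2
    constructor
    · refine bu.trans ((mul_le_mul_of_nonneg_left r1 hC.le).trans ?_)
      rw [← mul_assoc]
      exact mul_le_mul_of_nonneg_right (le_add_of_nonneg_right (by positivity)) (by positivity)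
    · refine bv.trans ((mul_le_mul_of_nonneg_left r2 hC.le).trans ?_)
      rw [← mul_assoc]
      exact mul_le_mul_of_nonneg_right (le_add_of_nonneg_left (by positivity)) (by positivity)
  have fzero : ∀ (x : EuclideanSpace ℝ (Fin n)) i, x ≠ 0 → ‖x‖ ≤ 1 →
      |flux p q A B c1 c2 u v i x| ≤ F₀ / ‖x‖ := by
    intro x i hx hx1
    have hX : 0 < ‖x‖ := norm_pos_iff.2 hx
    have hcond : ∀ (X r : ℝ), -2 < X → ‖x‖ ^ (X - r * 0) ≤ ‖x‖ ^ (-(0 : ℝ) - 2) := fun X r hX' =>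
      rpow_le_rpow_of_exponent_ge hX hx1 (by linarith)
    refine le_trans (f0 u v H x hx (fun z hz hz' => ?_) (hcond A p hA) (hcond B q hB) i)
      (le_of_eq (by norm_num [rpow_neg hX.le, div_eq_mul_inv]))
    have hz2 : z ∈ closedBall (0 : EuclideanSpace ℝ (Fin n)) 2 := by
      rw [mem_closedBall_zero_iff]; linarith
    simp only [neg_zero, rpow_zero, mul_one]
    exact ⟨(hMu (mem_image_of_mem _ hz2)).trans ((le_max_left _ _).trans (le_max_left _ _)),
      (hMv (mem_image_of_mem _ hz2)).trans ((le_max_right _ _).trans (le_max_left _ _))⟩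
  obtain ⟨L, hL, hcut⟩ := fderiv_rcut (n := n)
  set Q : EuclideanSpace ℝ (Fin n) → ℝ := fun y =>
    gap * (‖y‖ ^ A * v y ^ (p + 1)) + gap * (‖y‖ ^ B * u y ^ (q + 1)) with hQ
  have hQc : ∀ y, y ≠ 0 → ContinuousAt Q y ∧ 0 < Q y := by
    intro y hy
    have := norm_pos_iff.2 hy
    have := H.up y hy
    have := H.vp y hy
    refine ⟨?_, by simp only [hQ]; positivity⟩
    exact ((continuousAt_const.mul ((continuous_norm.continuousAt.rpow_const
      (Or.inl (norm_ne_zero_iff.2 hy))).mul (hv.continuousAt.rpow_const (Or.inr (by linarith))))).add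
      (continuousAt_const.mul ((continuous_norm.continuousAt.rpow_const
      (Or.inl (norm_ne_zero_iff.2 hy))).mul (hu.continuousAt.rpow_const (Or.inr (by linarith))))))
  -- a fixed bump supported in `1 ≤ |y| ≤ 2`
  obtain ⟨e, he⟩ : ∃ e : EuclideanSpace ℝ (Fin n), ‖e‖ = 1 :=
    ⟨EuclideanSpace.basisFun (Fin n) ℝ ⟨0, by omega⟩,
      (EuclideanSpace.basisFun (Fin n) ℝ).orthonormal.1 _⟩
  set x0 := (3 / 2 : ℝ) • e with hx0
  have hx0n : ‖x0‖ = 3 / 2 := by rw [hx0, norm_smul, he]; norm_num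
  set bump : EuclideanSpace ℝ (Fin n) → ℝ := fun y => chi (‖y - x0‖ ^ 2 / (1 / 3) ^ 2) with hbump
  have hbz : ∀ y, ¬ (1 ≤ ‖y‖ ∧ ‖y‖ ≤ 2) → bump y = 0 := by
    intro y hy
    refine chi_zero ?_
    have h1 : 1 / 2 ≤ ‖y - x0‖ := by
      by_contra h
      push Not at h
      have h2 := norm_le_norm_add_norm_sub' y x0
      have h3 := norm_le_norm_add_norm_sub' x0 y
      rw [norm_sub_rev] at h3
      exact hy ⟨by linarith, by linarith⟩
    rw [le_div_iff₀ (by norm_num)]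
    nlinarith
  have hb1 : ∀ y, bump y ≤ 1 := fun y => (chi_mem _).2
  have hcG : Continuous fun y => bump y * Q y := by
    have hbc : Continuous bump := contDiff_chi.continuous.comp (by fun_prop)
    refine continuous_iff_continuousAt.2 fun y => ?_
    rcases eq_or_ne y 0 with rfl | hy
    · refine (continuousAt_const (y := (0 : ℝ))).congr ?_
      filter_upwards [ball_mem_nhds (0 : EuclideanSpace ℝ (Fin n)) one_pos] with z hz
      rw [hbz z (fun h => by rw [mem_ball_zero_iff] at hz; linarith [h.1]), zero_mul]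
    · exact hbc.continuousAt.mul (hQc y hy).1
  have hJ : 0 < ∫ y, bump y * Q y := by
    have hne : x0 ≠ 0 := norm_pos_iff.1 (by rw [hx0n]; norm_num)
    refine Continuous.integral_pos_of_hasCompactSupport_nonneg_nonzero (x := x0) hcG
      (HasCompactSupport.intro (isCompact_closedBall 0 2) fun y hy => ?_) (fun y => ?_) ?_
    · rw [hbz y (fun h => hy (mem_closedBall_zero_iff.2 h.2)), zero_mul]
    · rcases eq_or_ne y 0 with rfl | hy
      · rw [hbz 0 (fun h => by rw [norm_zero] at h; linarith [h.1]), zero_mul]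
        exact le_rfl
      · exact mul_nonneg (chi_mem _).1 (hQc y hy).2.le
    · have : bump x0 = 1 := chi_one (by simp)
      rw [this, one_mul]
      exact (hQc x0 hne).2.ne'
  set vol := volume.real (closedBall (0 : EuclideanSpace ℝ (Fin n)) 1) with hvol
  have hball : ∀ r : ℝ, 0 < r →
      volume.real (closedBall (0 : EuclideanSpace ℝ (Fin n)) r) = r ^ n * vol := fun r hr => by
    rw [hvol, Measure.addHaar_real_closedBall' volume 0 hr.le, finrank_euclideanSpace_fin]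
  have key := fun (R ε : ℝ) (hR : 4 ≤ R) (hε : 0 < ε) (hε1 : ε ≤ 1 / 4) =>
    cutoff_le hn hp hq (by linarith) hc hc1 hc2 hF₁ hF₀ hL H hQ hQc hbz hb1 hcG finf fzero hcut
      hball hR hε hε1
  -- let the cutoff tend to infinity and to the origin
  set c₁ := L * F₁ * (2 : ℝ) ^ n * vol with hc₁d
  set c₀ := L * F₀ * (2 : ℝ) ^ n * vol with hc₀d
  have hlim : Tendsto (fun R : ℝ => (n : ℝ) * (c₁ * R ^ (-(α + β + 2 - n)) +
      c₀ * R ^ (-((n : ℝ) - 2)))) atTop (𝓝 0) := by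
    simpa using (((tendsto_rpow_neg_atTop (show 0 < α + β + 2 - n by linarith)).const_mul c₁).add
      ((tendsto_rpow_neg_atTop (show (0 : ℝ) < (n : ℝ) - 2 by linarith)).const_mul c₀)).const_mul
      (n : ℝ)
  obtain ⟨R, hR, hsmall⟩ := ((eventually_ge_atTop (4 : ℝ)).and
    (hlim.eventually (eventually_lt_nhds hJ))).exists
  have hR0 : 0 < R := by linarith
  have hfin := key R R⁻¹ hR (by positivity) (by rw [one_div]; exact inv_anti₀ (by norm_num) hR)
  refine lt_irrefl (∫ y, bump y * Q y) (lt_of_le_of_lt (hfin.trans_eq ?_) hsmall)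
  congr 1
  congr 1
  · rw [hc₁d, mul_pow, show -(α + β + 2 - n) = -(α + β + 1) + (-1) + (n : ℝ) by ring,
      rpow_add hR0, rpow_add hR0, rpow_neg_one, rpow_natCast]
    ring
  · rw [hc₀d, mul_pow, inv_pow, show -((n : ℝ) - 2) = ((2 : ℕ) : ℝ) + -(n : ℝ) by push_cast; ring,
      rpow_add hR0, rpow_neg hR0.le, rpow_natCast, rpow_natCast]
    field_simp

end

end Vale.Agent.P100.Local
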